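import Vale.Agent.P231.TW.Deg2
import Vale.Agent.P231.Q.Phi

/-!
# P231, block TW: integrals of top forms, product bases and Fubini
-/

set_option linter.unusedSectionVars false
set_option linter.unusedVariables false

open Module MeasureTheory Set Metric Filter
open scoped ContDiff Topology

namespace Vale.Agent.P231.TW

open Fm WA

section Basis

variable {X : Type*} [NormedAddCommGroup X] [NormedSpace ℝ X] [FiniteDimensional ℝ X]
variable {Y : Type*} [NormedAddCommGroup Y] [NormedSpace ℝ Y] [FiniteDimensional ℝ Y]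

/-- the product basis, fibre vectors first -/
noncomputable def pB {k l : ℕ} (bX : Basis (Fin k) ℝ X) (bY : Basis (Fin l) ℝ Y) :
    Basis (Fin (l + k)) ℝ (X × Y) :=
  (bX.prod bY).reindex ((Equiv.sumComm _ _).trans finSumFinEquiv)

theorem pB_castAdd {k l : ℕ} (bX : Basis (Fin k) ℝ X) (bY : Basis (Fin l) ℝ Y) (i : Fin l) :
    pB bX bY (Fin.castAdd k i) = (0, bY i) := by
  rw [pB, Basis.reindex_apply, Equiv.symm_trans_apply, finSumFinEquiv_symm_apply_castAdd,
    Basis.prod_apply]
  rfl

theorem pB_natAdd {k l : ℕ} (bX : Basis (Fin k) ℝ X) (bY : Basis (Fin l) ℝ Y) (i : Fin k) :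
    pB bX bY (Fin.natAdd l i) = (bX i, 0) := by
  rw [pB, Basis.reindex_apply, Equiv.symm_trans_apply, finSumFinEquiv_symm_apply_natAdd,
    Basis.prod_apply]
  rfl

theorem cont_add {k l : ℕ} (c : Fin (l + k) → X) (w : Lam X) :
    cont c w = cont (fun j => c (Fin.natAdd l j)) (cont (fun i => c (Fin.castAdd k i)) w) := by
  have hcast : ∀ {n n' : ℕ} (h : n = n') (c : Fin n' → X) (w : Lam X),
      cont c w = cont (fun i => c (Fin.cast h i)) w := by
    rintro n _ rfl c w
    rfl
  induction l generalizing w with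
  | zero =>
    rw [hcast (Nat.zero_add k).symm c w]
    have h1 : (fun i => c (Fin.cast (Nat.zero_add k).symm i)) = fun j => c (Fin.natAdd 0 j) := by
      funext i
      congr 1
      ext
      simp
    rw [h1]
    rfl
  | succ l ih =>
    have h : l + k + 1 = l + 1 + k := by omega
    rw [hcast h c w, cont_succ, ih]
    rw [cont_succ (fun i => c (Fin.castAdd k i)) w]
    have h1 : (fun j : Fin k => c (Fin.cast h (Fin.natAdd l j).succ)) =
        fun j => c (Fin.natAdd (l + 1) j) := by
      funext i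
      congr 1
      ext
      simp
      omega
    have h2 : (fun i : Fin l => c (Fin.cast h (Fin.castAdd k i).succ)) =
        fun i => c (Fin.castAdd k i.succ) := by
      funext i
      congr 1
    have h3 : c (Fin.cast h 0) = c (Fin.castAdd k 0) := by
      congr 1
    rw [h1, h2, h3]

end Basis

section Int

variable {X : Type*} [NormedAddCommGroup X] [NormedSpace ℝ X] [FiniteDimensional ℝ X]
  [MeasurableSpace X] [BorelSpace X]
variable {Y : Type*} [NormedAddCommGroup Y] [NormedSpace ℝ Y] [FiniteDimensional ℝ Y]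
  [MeasurableSpace Y] [BorelSpace Y]

theorem evalForm_pB {k l : ℕ} (bX : Basis (Fin k) ℝ X) (bY : Basis (Fin l) ℝ Y)
    (w : Lam (X × Y)) : evalForm w (pB bX bY) = evalForm (slice bY w) bX := by
  rw [evalForm_apply, cont_add, slice_apply, evalForm_pull, evalForm_apply]
  have h1 : (fun j => pB bX bY (Fin.natAdd l j)) =
      fun i => ContinuousLinearMap.inl ℝ X Y (bX i) := by
    funext i
    rw [pB_natAdd]
    rfl
  have h2 : (fun i => pB bX bY (Fin.castAdd k i)) = vert bY := by
    funext i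
    rw [pB_castAdd]
    rfl
  rw [h1, h2]

/-- the integral of a form of top degree -/
noncomputable def JJ {k : ℕ} (b : Basis (Fin k) ℝ X) (w : X → Lam X) : ℝ :=
  ∫ x, evalForm (w x) b ∂b.addHaar

theorem JJ_congr {k : ℕ} (b : Basis (Fin k) ℝ X) {v w : X → Lam X} (h : ∀ x, v x = w x) :
    JJ b v = JJ b w := by
  unfold JJ
  simp only [h]

theorem JJ_zero {k : ℕ} (b : Basis (Fin k) ℝ X) {w : X → Lam X}
    (h : ∀ x, evalForm (w x) b = 0) : JJ b w = 0 := by
  unfold JJ
  simp only [h, integral_zero]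

/-- change of coordinates -/
theorem JJ_pb_equiv {k : ℕ} (b : Basis (Fin k) ℝ X) (L : X ≃L[ℝ] Y) (w : Y → Lam Y) :
    JJ b (pb L w) = JJ (b.map L.toLinearEquiv) w := by
  unfold JJ
  have h1 : MeasurableEmbedding (L : X → Y) := L.toHomeomorph.measurableEmbedding
  rw [← Basis.map_addHaar b L, h1.integral_map]
  refine integral_congr_ae (Eventually.of_forall fun x => ?_)
  change evalForm (pb L w x) b = evalForm (w (L x)) (b.map L.toLinearEquiv)
  rw [pb, L.fderiv, evalForm_pull]
  rfl

/-- Stokes -/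
theorem JJ_extd {k : ℕ} (b : Basis (Fin (k + 1)) ℝ X) {w : X → Lam X} (hw : ContDiff ℝ 1 w)
    {K : Set X} (hK : IsCompact K) (hc : ∀ x ∉ K, prt k (w x) = 0) : JJ b (extd w) = 0 :=
  stokes_prt b.addHaar b hw hK hc

theorem addHaar_pB {k l : ℕ} (bX : Basis (Fin k) ℝ X) (bY : Basis (Fin l) ℝ Y) :
    (pB bX bY).addHaar = bX.addHaar.prod bY.addHaar := by
  rw [pB, Basis.addHaar_reindex, Basis.prod_addHaar]

/-- Fubini -/
theorem JJ_pB {k l : ℕ} (bX : Basis (Fin k) ℝ X) (bY : Basis (Fin l) ℝ Y)
    {w : X × Y → Lam (X × Y)} (hw : Continuous fun z => evalForm (w z) (pB bX bY))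
    {K : Set (X × Y)} (hK : IsCompact K) (h0 : ∀ z ∉ K, evalForm (w z) (pB bX bY) = 0) :
    JJ (pB bX bY) w = ∫ x, ∫ y, evalForm (slice bY (w (x, y))) bX ∂bY.addHaar ∂bX.addHaar := by
  have hi : Integrable (fun z => evalForm (w z) (pB bX bY)) (bX.addHaar.prod bY.addHaar) :=
    hw.integrable_of_hasCompactSupport (HasCompactSupport.intro hK h0)
  unfold JJ
  rw [addHaar_pB, integral_prod _ hi]
  simp only [evalForm_pB]

end Int

end Vale.Agent.P231.TW
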