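import Vale.Agent.P231.TW.RankR
import Vale.Agent.P231.Fm.Homot

/-!
# P231, block TW: pullbacks of a basic closed form along subordinate maps agree
-/

set_option linter.unusedSectionVars false
set_option linter.unusedVariables false

open Module MeasureTheory Set Metric Filter
open scoped ContDiff Topology

namespace Vale.Agent.P231.TW

open Fm WA FE

variable {V : Type*} [NormedAddCommGroup V] [InnerProductSpace ℝ V] [FiniteDimensional ℝ V]
variable {Z : Type*} [NormedAddCommGroup Z] [NormedSpace ℝ Z] [FiniteDimensional ℝ Z]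
variable {m : ℕ} {Pi : V → V →L[ℝ] V}

/-- a closed form, basic for the spread -/
structure Bs (Pi : V → V →L[ℝ] V) (F : V → Lam V) : Prop where
  smooth : ContDiffOn ℝ ∞ F {0}ᶜ
  closed : ∀ y ≠ 0, extd F y = 0
  basic : ∀ y ≠ 0, ∀ w, Pi y w = w → iprod w (F y) = 0

/-- two vectors which are not antiparallel -/
def Ap (a b : V) : Prop := 0 < ‖a‖ * ‖b‖ + inner ℝ a b

theorem Ap.ne {a b : V} (h : Ap a b) (ha : a ≠ 0) (hb : b ≠ 0) {s : ℝ} (hs0 : 0 ≤ s) (hs1 : s ≤ 1) :
    (1 - s) • a + s • b ≠ 0 := by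
  intro h0
  have ha' : 0 < ‖a‖ := norm_pos_iff.2 ha
  have hb' : 0 < ‖b‖ := norm_pos_iff.2 hb
  have h1 : (1 - s) • a = -(s • b) := eq_neg_of_add_eq_zero_left h0
  have h2 : (1 - s) * ‖a‖ = s * ‖b‖ := by
    have := congrArg norm h1
    rwa [norm_neg, norm_smul, norm_smul, Real.norm_eq_abs, Real.norm_eq_abs,
      abs_of_nonneg (by linarith), abs_of_nonneg hs0] at this
  have h3 : (1 - s) * inner ℝ a b = -(s * ‖b‖ ^ 2) := by
    have := congrArg (fun v => inner ℝ v b) h1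
    simp only [inner_neg_left, real_inner_smul_left, real_inner_self_eq_norm_sq] at this
    exact this
  have h4 : (1 - s) * (‖a‖ * ‖b‖ + inner ℝ a b) = 0 := by
    have : (1 - s) * (‖a‖ * ‖b‖ + inner ℝ a b) =
        ((1 - s) * ‖a‖) * ‖b‖ + (1 - s) * inner ℝ a b := by ring
    rw [this, h2, h3]
    ring
  rcases mul_eq_zero.1 h4 with h5 | h5
  · have hs : s = 1 := by linarith
    rw [hs, sub_self, zero_mul, one_mul] at h2
    exact hb'.ne h2
  · exact absurd h5 (ne_of_gt h)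

/-- the homotopy lemma for maps which are not antiparallel -/
theorem Bs.pb_eq_aux (h : Spread m Pi) {F : V → Lam V} (hF : Bs Pi F) {f c : Z → V} {U : Set Z}
    (hU : IsOpen U) (hf : ContDiffOn ℝ 2 f U) (hc : ContDiffOn ℝ 2 c U) (hf0 : ∀ z ∈ U, f z ≠ 0)
    (hc0 : ∀ z ∈ U, c z ≠ 0) (hs : ∀ z ∈ U, Pi (c z) (f z) = f z)
    (hap : ∀ z ∈ U, Ap (c z) (f z)) {z : Z} (hz : z ∈ U) : pb f F z = pb c F z := by
  let τ : ℝ → ℝ := Real.smoothTransition
  have hτ : ContDiff ℝ ∞ τ := Real.smoothTransition.contDiff (n := ⊤)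
  let H : Z × ℝ → V := fun p => (1 - τ p.2) • c p.1 + τ p.2 • f p.1
  have hopen : IsOpen (U ×ˢ (univ : Set ℝ)) := hU.prod isOpen_univ
  have hH : ContDiffOn ℝ 2 H (U ×ˢ univ) := by
    have h1 : ContDiffOn ℝ 2 (fun p : Z × ℝ => c p.1) (U ×ˢ univ) :=
      hc.comp contDiff_fst.contDiffOn fun p hp => hp.1
    have h2 : ContDiffOn ℝ 2 (fun p : Z × ℝ => f p.1) (U ×ˢ univ) :=
      hf.comp contDiff_fst.contDiffOn fun p hp => hp.1
    have h3 : ContDiffOn ℝ 2 (fun p : Z × ℝ => τ p.2) (U ×ˢ univ) :=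
      ((hτ.of_le two_le_inf).comp contDiff_snd).contDiffOn
    exact ((contDiffOn_const.sub h3).smul h1).add (h3.smul h2)
  have hH0 : ∀ p ∈ U ×ˢ (univ : Set ℝ), H p ≠ 0 := fun p hp =>
    (hap p.1 hp.1).ne (hc0 _ hp.1) (hf0 _ hp.1) (Real.smoothTransition.nonneg _)
      (Real.smoothTransition.le_one _)
  have hHat : ∀ p ∈ U ×ˢ (univ : Set ℝ), ContDiffAt ℝ 2 H p := fun p hp =>
    hH.contDiffAt (hopen.mem_nhds hp)
  have hFat : ∀ y : V, y ≠ 0 → ContDiffAt ℝ ∞ F y := fun y hy =>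
    hF.smooth.contDiffAt (isOpen_compl_singleton.mem_nhds hy)
  let w : Z × ℝ → Lam (Z × ℝ) := pb H F
  have hw : ContDiffOn ℝ 1 w (U ×ˢ univ) := fun p hp =>
    (contDiffAt_pb (m := 1) (n := 2) (hHat p hp) ((hFat _ (hH0 p hp)).of_le (by simp))
      (by norm_num)).contDiffWithinAt
  have h1 := kop_homotopy hU hw hz
  -- the closed part
  have h2 : kop (extd w) z = 0 := by
    unfold kop
    have h3 : ∀ t, at1 (extd w (z, t)) = 0 := by
      intro t
      have hp : ((z, t) : Z × ℝ) ∈ U ×ˢ (univ : Set ℝ) := ⟨hz, mem_univ _⟩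
      rw [extd_pb (hHat _ hp) ((hFat _ (hH0 _ hp)).differentiableAt (by simp)),
        pb, hF.closed _ (hH0 _ hp), map_zero, map_zero]
    simp only [h3, intervalIntegral.integral_zero]
  -- the basic part
  have h3 : ∀ x ∈ U, kop w x = 0 := by
    intro x hx
    unfold kop
    have h4 : ∀ t, at1 (w (x, t)) = 0 := by
      intro t
      have hp : ((x, t) : Z × ℝ) ∈ U ×ˢ (univ : Set ℝ) := ⟨hx, mem_univ _⟩
      have hd : DifferentiableAt ℝ H (x, t) := (hHat _ hp).differentiableAt (by simp)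
      have h5 : fderiv ℝ H (x, t) (0, 1) = deriv τ t • (f x - c x) := by
        have h6 : HasDerivAt (fun s : ℝ => H (x, s)) (fderiv ℝ H (x, t) (0, 1)) t := by
          have h7 : HasFDerivAt (fun s : ℝ => H (x, s))
              (fderiv ℝ H (x, t) ∘L ContinuousLinearMap.inr ℝ Z ℝ) t :=
            hd.hasFDerivAt.comp t (hasFDerivAt_prodMk_right x t)
          exact h7.hasDerivAt
        have h9 : HasDerivAt (fun s : ℝ => H (x, s)) ((-deriv τ t) • c x + deriv τ t • f x) t := by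
          have h10 : HasDerivAt τ (deriv τ t) t := (hτ.differentiable (by simp) t).hasDerivAt
          have h11 : HasDerivAt (fun s => 1 - τ s) (-deriv τ t) t := h10.const_sub 1
          exact (h11.smul_const (c x)).add (h10.smul_const (f x))
        rw [h6.unique h9]
        module
      have hPH : Pi (H (x, t)) = Pi (c x) := by
        refine h.rel _ _ (hc0 x hx) (hH0 _ hp) ?_
        simp only [H, map_add, map_smul]
        rw [h.self _ (hc0 x hx), hs x hx]
      rw [at1_apply]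
      change at0 (iprod ((0, 1) : Z × ℝ) (pull (fderiv ℝ H (x, t)) (F (H (x, t))))) = 0
      rw [pull_iprod, h5, iprod_smul, hF.basic _ (hH0 _ hp), smul_zero, map_zero, map_zero]
      rw [hPH, map_sub, h.self _ (hc0 x hx), hs x hx]
    simp only [h4, intervalIntegral.integral_zero]
  have h4 : extd (kop w) z = 0 := by
    have h5 : kop w =ᶠ[𝓝 z] fun _ => 0 := by
      filter_upwards [hU.mem_nhds hz] with x hx using h3 x hx
    rw [extd_congr h5, extd_const]
  rw [h2, h4, add_zero, sub_eq_zero] at h1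
  -- the two ends
  have h5 : ∀ t, at0 (w (z, t)) = pb (fun x => H (x, t)) F z := by
    intro t
    have hp : ((z, t) : Z × ℝ) ∈ U ×ˢ (univ : Set ℝ) := ⟨hz, mem_univ _⟩
    have hd : DifferentiableAt ℝ H (z, t) := (hHat _ hp).differentiableAt (by simp)
    have h7 : HasFDerivAt (fun x => H (x, t))
        (fderiv ℝ H (z, t) ∘L ContinuousLinearMap.inl ℝ Z ℝ) z :=
      HasFDerivAt.comp (g := H) (f := fun x : Z => (x, t)) z hd.hasFDerivAt
        (hasFDerivAt_prodMk_left z t)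
    have h6 := h7.fderiv
    rw [at0_apply]
    change pull _ (pull (fderiv ℝ H (z, t)) (F (H (z, t)))) =
      pull (fderiv ℝ (fun x => H (x, t)) z) (F (H (z, t)))
    rw [h6, pull_comp_apply]
  rw [h5, h5] at h1
  have h6 : (fun x => H (x, 1)) = f := by
    funext x
    simp only [H, τ]
    rw [Real.smoothTransition.one, sub_self, zero_smul, zero_add, one_smul]
  have h7 : (fun x => H (x, 0)) = c := by
    funext x
    simp only [H, τ]
    rw [Real.smoothTransition.zero, sub_zero, zero_smul, add_zero, one_smul]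
  rwa [h6, h7] at h1

/-- **pullbacks along subordinate maps** -/
theorem Bs.pb_eq (h : Spread m Pi) (hm : 2 ≤ m) {F : V → Lam V} (hF : Bs Pi F) {f c : Z → V} {z : Z}
    (hf : ContDiffAt ℝ 2 f z) (hc : ContDiffAt ℝ 2 c z) (hf0 : f z ≠ 0) (hc0 : c z ≠ 0)
    (hs : ∀ᶠ y in 𝓝 z, Pi (c y) (f y) = f y) : pb f F z = pb c F z := by
  -- the lemma under the assumption that the values at `z` are not antiparallel
  have key : ∀ {f c : Z → V}, ContDiffAt ℝ 2 f z → ContDiffAt ℝ 2 c z → f z ≠ 0 → c z ≠ 0 →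
      (∀ᶠ y in 𝓝 z, Pi (c y) (f y) = f y) → Ap (c z) (f z) → pb f F z = pb c F z := by
    intro f c hf hc hf0 hc0 hs hap
    have e1 : ∀ᶠ y in 𝓝 z, ContDiffAt ℝ 2 f y := hf.eventually (by simp)
    have e2 : ∀ᶠ y in 𝓝 z, ContDiffAt ℝ 2 c y := hc.eventually (by simp)
    have e3 : ∀ᶠ y in 𝓝 z, f y ≠ 0 := hf.continuousAt.eventually_ne hf0
    have e4 : ∀ᶠ y in 𝓝 z, c y ≠ 0 := hc.continuousAt.eventually_ne hc0
    have e5 : ∀ᶠ y in 𝓝 z, Ap (c y) (f y) := by
      have h1 : ContinuousAt (fun y => ‖c y‖ * ‖f y‖ + inner ℝ (c y) (f y)) z :=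
        (hc.continuousAt.norm.mul hf.continuousAt.norm).add
          (hc.continuousAt.inner hf.continuousAt)
      exact h1.eventually (lt_mem_nhds hap)
    obtain ⟨U, hU, hUo, hzU⟩ := _root_.eventually_nhds_iff.1 ((((e1.and e2).and e3).and e4).and (e5.and hs))
    exact Bs.pb_eq_aux h hF hUo (fun y hy => (hU y hy).1.1.1.1.contDiffWithinAt)
      (fun y hy => (hU y hy).1.1.1.2.contDiffWithinAt) (fun y hy => (hU y hy).1.1.2)
      (fun y hy => (hU y hy).1.2) (fun y hy => (hU y hy).2.2) (fun y hy => (hU y hy).2.1) hzU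
  by_cases hap : Ap (c z) (f z)
  · exact key hf hc hf0 hc0 hs hap
  -- antiparallel values: pass through an orthogonal direction
  have hpar : ‖c z‖ * ‖f z‖ + inner ℝ (c z) (f z) = 0 := by
    refine le_antisymm (not_lt.1 hap) ?_
    have := abs_real_inner_le_norm (c z) (f z)
    have := (abs_le.1 this).1
    linarith
  have hfc : ‖c z‖ • f z = -(‖f z‖ • c z) := by
    have h1 : inner ℝ (c z) (-f z) = ‖c z‖ * ‖-f z‖ := by
      rw [inner_neg_right, norm_neg]
      linarith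
    have h2 := inner_eq_norm_mul_iff_real.1 h1
    rw [norm_neg, smul_neg] at h2
    rw [h2, neg_neg]
  obtain ⟨e, he, hce, hPe⟩ : ∃ e : V, e ≠ 0 ∧ inner ℝ (c z) e = 0 ∧ Pi (c z) e = e := by
    let R := LinearMap.range (Pi (c z) : V →ₗ[ℝ] V)
    let L : R →ₗ[ℝ] ℝ := (innerSL ℝ (c z) : V →ₗ[ℝ] ℝ) ∘ₗ R.subtype
    have h1 : LinearMap.ker L ≠ ⊥ := by
      refine LinearMap.ker_ne_bot_of_finrank_lt ?_
      rw [finrank_self]
      have : finrank ℝ R = m := h.rank _ hc0
      omega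
    obtain ⟨v, hv, hv0⟩ := Submodule.exists_mem_ne_zero_of_ne_bot h1
    refine ⟨v, fun h2 => hv0 (Subtype.ext h2), hv, ?_⟩
    obtain ⟨x, hx⟩ := v.2
    have h3 : Pi (c z) x = v := hx
    rw [← h3, h.idem _ hc0]
  have hfe : inner ℝ (f z) e = 0 := by
    have h1 := congrArg (fun v => inner ℝ v e) hfc
    simp only [inner_neg_left, real_inner_smul_left, hce, mul_zero, neg_zero] at h1
    exact (mul_eq_zero.1 h1).resolve_left (norm_ne_zero_iff.2 hc0)
  let g : Z → V := fun y => Pi (c y) e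
  have hg : ContDiffAt ℝ 2 g z :=
    (((h.smooth _ hc0).of_le two_le_inf).comp z hc).clm_apply contDiffAt_const
  have hgz : g z = e := hPe
  have hg0 : g z ≠ 0 := by rw [hgz]; exact he
  have ec : ∀ᶠ y in 𝓝 z, c y ≠ 0 := hc.continuousAt.eventually_ne hc0
  have eg : ∀ᶠ y in 𝓝 z, g y ≠ 0 := hg.continuousAt.eventually_ne hg0
  have hapc : Ap (c z) (g z) := by
    unfold Ap
    rw [hgz, hce, add_zero]
    exact mul_pos (norm_pos_iff.2 hc0) (norm_pos_iff.2 he)
  have hapf : Ap (g z) (f z) := by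
    unfold Ap
    rw [hgz, real_inner_comm, hfe, add_zero]
    exact mul_pos (norm_pos_iff.2 he) (norm_pos_iff.2 hf0)
  have s1 : ∀ᶠ y in 𝓝 z, Pi (c y) (g y) = g y := by
    filter_upwards [ec] with y hy using h.idem _ hy _
  have s2 : ∀ᶠ y in 𝓝 z, Pi (g y) (f y) = f y := by
    filter_upwards [ec, eg, hs] with y h1 h2 h3
    rw [h.rel _ _ h1 h2 (h.idem _ h1 _), h3]
  rw [key hf hg hf0 hg0 s2 hapf, key hg hc hg0 hc0 s1 hapc]

end Vale.Agent.P231.TW
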