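import Vale.Agent.P231.TW.Theta
import Vale.Agent.P231.TW.Basic

/-!
# P231, block TW: the hypotheses on the angular form, and its integral over linear spheres
-/

set_option linter.unusedSectionVars false
set_option linter.unusedVariables false

open Module MeasureTheory Set Metric Filter
open scoped ContDiff Topology

namespace Vale.Agent.P231.TW

open Fm WA FE

section Basis

variable {W : Type*} [NormedAddCommGroup W] [NormedSpace ℝ W] [FiniteDimensional ℝ W]
  [MeasurableSpace W] [BorelSpace W]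

/-- the integral depends on the basis only up to sign -/
theorem abs_JJ_basis {N : ℕ} (b b' : Basis (Fin N) ℝ W) (g : W → Lam W) :
    |JJ b' g| = |JJ b g| := by
  let A : W ≃L[ℝ] W := (b.equiv b' (Equiv.refl _)).toContinuousLinearEquiv
  have hA : b.map A.toLinearEquiv = b' := by
    refine Basis.eq_of_apply_eq fun i => ?_
    rw [Basis.map_apply]
    change (b.equiv b' (Equiv.refl _)) (b i) = b' i
    rw [Basis.equiv_apply]
    rfl
  have hdet : LinearMap.det (A.toLinearEquiv : W →ₗ[ℝ] W) ≠ 0 :=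
    (LinearEquiv.isUnit_det' A.toLinearEquiv).ne_zero
  have hm : (b').addHaar = ENNReal.ofReal |(LinearMap.det (A.toLinearEquiv : W →ₗ[ℝ] W))⁻¹| •
      b.addHaar := by
    rw [← hA, ← Basis.map_addHaar b A]
    exact Measure.map_linearMap_addHaar_eq_smul_addHaar (μ := b.addHaar)
      (f := (A.toLinearEquiv : W →ₗ[ℝ] W)) hdet
  have he : ∀ w : Lam W, evalForm w b' =
      LinearMap.det (A.toLinearEquiv : W →ₗ[ℝ] W) * evalForm w b := by
    intro w
    rw [← hA]
    have h1 := evalForm_pull_det b (A : W →L[ℝ] W) w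
    rw [evalForm_pull] at h1
    exact h1
  unfold JJ
  simp only [he]
  rw [hm, integral_smul_measure, integral_const_mul, ENNReal.toReal_ofReal (abs_nonneg _),
    smul_eq_mul, abs_mul, abs_mul, abs_abs, ← mul_assoc, ← abs_mul, inv_mul_cancel₀ hdet, abs_one,
    one_mul]

end Basis

variable {V : Type*} [NormedAddCommGroup V] [InnerProductSpace ℝ V] [FiniteDimensional ℝ V]
  [MeasurableSpace V] [BorelSpace V]

/-- the standard basis of the model space -/
noncomputable def bE (m : ℕ) : Basis (Fin m) ℝ (EuclideanSpace ℝ (Fin m)) :=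
  (EuclideanSpace.basisFun (Fin m) ℝ).toBasis

/-- the hypotheses on the angular form `psi` of the spread `Pi` -/
structure Ang (m : ℕ) (Pi : V → V →L[ℝ] V) (psi : V → Lam V) (κ : ℝ) : Prop where
  smooth : ContDiffOn ℝ ∞ psi {0}ᶜ
  deg : ∀ y ≠ 0, prt (m - 1) (psi y) = psi y
  hom : ∀ y ≠ 0, pb rad psi y = psi y
  basic : ∀ y ≠ 0, ∀ w, Pi y w = w → iprod w (extd psi y) = 0
  kappa : ∀ (T : EuclideanSpace ℝ (Fin m) →ₗᵢ[ℝ] V) (x : V), x ≠ 0 → (∀ w, Pi x (T w) = T w) →
    |JJ (bE m) (fun y => Q.dR rst y * pb T psi y)| = κ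

variable {m : ℕ} {Pi : V → V →L[ℝ] V} {psi : V → Lam V} {κ : ℝ}

theorem Ang.at (A : Ang m Pi psi κ) {y : V} (hy : y ≠ 0) : ContDiffAt ℝ ∞ psi y :=
  A.smooth.contDiffAt (isOpen_compl_singleton.mem_nhds hy)

theorem Ang.diff (A : Ang m Pi psi κ) {y : V} (hy : y ≠ 0) : DifferentiableAt ℝ psi y :=
  (A.at hy).differentiableAt (by simp)

theorem Ang.at_extd (A : Ang m Pi psi κ) {y : V} (hy : y ≠ 0) : ContDiffAt ℝ ∞ (extd psi) y :=
  contDiffAt_extd (A.at hy) (by simp)

/-- the derivative is a closed basic form -/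
theorem Ang.bs (A : Ang m Pi psi κ) : Bs Pi (extd psi) where
  smooth y hy := (A.at_extd hy).contDiffWithinAt
  closed y hy := extd_extd ((A.at hy).of_le two_le_inf)
  basic := A.basic

section Lin

variable {W : Type*} [NormedAddCommGroup W] [InnerProductSpace ℝ W] [FiniteDimensional ℝ W]
  [MeasurableSpace W] [BorelSpace W]

theorem Ang.smooth_pb (A : Ang m Pi psi κ) {T : W →L[ℝ] V} (hT : Function.Injective T) :
    ContDiffOn ℝ ∞ (pb T psi) {0}ᶜ := fun y hy =>
  (contDiffAt_pb (m := ∞) (n := ∞) T.contDiff.contDiffAt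
    (A.at fun h0 => hy (hT (by rw [h0, map_zero]))) (by simp)).contDiffWithinAt

theorem Ang.hom_pb (A : Ang m Pi psi κ) {T : W →L[ℝ] V} (hT : Function.Injective T) :
    Hom (pb T psi) := by
  intro y hy
  have hTy : T y ≠ 0 := fun h0 => hy (hT (by rw [h0, map_zero]))
  have hr : rad y ≠ 0 := by
    rw [← norm_ne_zero_iff, norm_rad hy]
    exact one_ne_zero
  have hTr : T (rad y) ≠ 0 := fun h0 => hr (hT (by rw [h0, map_zero]))
  have hd : DifferentiableAt ℝ (rad : W → W) y := (contDiffAt_rad hy).differentiableAt (by simp)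
  rw [← pb_comp psi T.differentiableAt hd]
  refine Hom.pb_smul A.hom (T.differentiableAt.comp y hd) T.differentiableAt hTr ?_ hTy
  filter_upwards [isOpen_compl_singleton.mem_nhds hy] with z hz
  have h1 : T (rad z) = ‖z‖⁻¹ • T z := map_smul T _ _
  rw [h1]
  exact rad_smul _ (inv_pos.2 (norm_pos_iff.2 hz))

/-- the derivative of the angular form vanishes on the leaves -/
theorem Ang.extd_pb_lin (h : Spread m Pi) (A : Ang m Pi psi κ) {T : W →L[ℝ] V}
    (hT : Function.Injective T) {x : V} (hx : x ≠ 0) (hP : ∀ w, Pi x (T w) = T w) {k : ℕ}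
    (b : Basis (Fin k) ℝ W) {y : W} (hy : y ≠ 0) : evalForm (extd (pb T psi) y) b = 0 := by
  have hTy : T y ≠ 0 := fun h0 => hy (hT (by rw [h0, map_zero]))
  refine Q.evalForm_eq_zero_of_iprod b hy ?_
  rw [extd_pb T.contDiff.contDiffAt (A.diff hTy), pb, pull_iprod,
    T.fderiv, A.basic _ hTy, map_zero]
  exact h.self _ hTy

end Lin

/-- the integral over a linear sphere of a leaf -/
theorem Ang.kappa_lin (h : Spread m Pi) (A : Ang m Pi psi κ)
    {T : EuclideanSpace ℝ (Fin m) →L[ℝ] V} (hT : Function.Injective T) {x : V} (hx : x ≠ 0)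
    (hP : ∀ w, Pi x (T w) = T w) :
    |JJ (bE m) (fun y => Q.dR rst y * pb T psi y)| = κ := by
  let R := LinearMap.range (Pi x : V →ₗ[ℝ] V)
  have hR : finrank ℝ R = m := h.rank x hx
  let S0 : EuclideanSpace ℝ (Fin m) ≃ₗᵢ[ℝ] R :=
    ((stdOrthonormalBasis ℝ R).reindex (finCongr hR)).repr.symm
  let S : EuclideanSpace ℝ (Fin m) →ₗᵢ[ℝ] V := R.subtypeₗᵢ.comp S0.toLinearIsometry
  have hS : ∀ w, Pi x (S w) = S w := by
    intro w
    obtain ⟨v, hv⟩ := (S0 w).2
    have h1 : Pi x v = S w := hv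
    rw [← h1, h.idem x hx]
  let T0 : EuclideanSpace ℝ (Fin m) →ₗ[ℝ] R :=
    (T : EuclideanSpace ℝ (Fin m) →ₗ[ℝ] V).codRestrict R fun w => ⟨T w, hP w⟩
  let A0 : EuclideanSpace ℝ (Fin m) →ₗ[ℝ] EuclideanSpace ℝ (Fin m) :=
    (S0.symm.toLinearEquiv : R →ₗ[ℝ] EuclideanSpace ℝ (Fin m)) ∘ₗ T0
  have hA0 : Function.Injective A0 := by
    intro u v huv
    have h1 : T0 u = T0 v := S0.symm.injective huv
    exact hT (congrArg Subtype.val h1)
  let L : EuclideanSpace ℝ (Fin m) ≃L[ℝ] EuclideanSpace ℝ (Fin m) :=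
    (LinearEquiv.ofInjectiveEndo A0 hA0).toContinuousLinearEquiv
  have hSL : ∀ w, S (L w) = T w := by
    intro w
    change ((S0 (S0.symm (T0 w)) : R) : V) = T w
    rw [S0.apply_symm_apply]
    rfl
  have hSinj : Function.Injective S.toContinuousLinearMap := S.injective
  let σ : EuclideanSpace ℝ (Fin m) → Lam (EuclideanSpace ℝ (Fin m)) := pb S psi
  have hσ : ContDiffOn ℝ ∞ σ {0}ᶜ := A.smooth_pb (T := S.toContinuousLinearMap) hSinj
  have hσ0 : ∀ y ≠ 0, evalForm (extd σ y) (bE m) = 0 := fun y hy =>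
    Ang.extd_pb_lin h A (T := S.toContinuousLinearMap) hSinj hx hS (bE m) hy
  let r' : EuclideanSpace ℝ (Fin m) → ℝ := fun y => rst (L.symm y)
  have hr' : Q.Cut r' (L '' closedBall 0 3) :=
    { smooth := contDiff_rst.comp L.symm.contDiff
      compact := (isCompact_closedBall _ _).image L.continuous
      one := fun y hy => cut_rst.one _ fun h1 => hy ⟨L.symm y, h1, L.apply_symm_apply y⟩
      zero := by
        have h1 : Tendsto L.symm (𝓝 0) (𝓝 0) := by
          have := L.symm.continuous.tendsto (0 : EuclideanSpace ℝ (Fin m))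
          rwa [map_zero] at this
        exact h1.eventually cut_rst.zero }
  have e1 : ∀ y, Q.dR rst y * pb T psi y = pb L (fun y => Q.dR r' y * σ y) y := by
    intro y
    rw [pb_mul]
    congr 1
    · have h1 : pb L (Q.dR r') y = dx (fderiv ℝ (fun w => r' (L w)) y) := by
        rw [pb, Q.dR, pull_dx]
        congr 1
        exact (fderiv_comp y (hr'.smooth.differentiable (by simp) _) L.differentiableAt).symm
      rw [h1]
      have h2 : (fun w => r' (L w)) = rst := by
        funext w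
        change rst (L.symm (L w)) = rst w
        rw [L.symm_apply_apply]
      rw [h2]
      rfl
    · change pb T psi y = pb L (pb S psi) y
      have h3 := pb_comp psi (f := L) (g := S) (x := y)
        S.toContinuousLinearMap.differentiableAt L.differentiableAt
      rw [← h3]
      refine pb_congr psi (Eventually.of_forall fun w => (hSL w).symm)
  rw [JJ_congr _ e1, JJ_pb_equiv, abs_JJ_basis (bE m)]
  have e2 := cut_indep (bE m).addHaar (bE m) hσ hσ0 hr' cut_rst
  unfold JJ
  rw [e2]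
  exact A.kappa S x hx hS

/-- the integral of the angular form over a parametrised sphere in a leaf -/
theorem Ang.kappa_th (h : Spread m Pi) (A : Ang m Pi psi κ) (hm : 3 ≤ m)
    {e0 : EuclideanSpace ℝ (Fin m)} (he : ‖e0‖ = 1)
    (bY : Basis (Fin (m - 1)) ℝ (Submodule.span ℝ {e0})ᗮ)
    {T : EuclideanSpace ℝ (Fin m) →L[ℝ] V} (hT : Function.Injective T) {x : V} (hx : x ≠ 0)
    (hP : ∀ w, Pi x (T w) = T w) : |JJ bY (pb (fun y => T (th e0 y)) psi)| = κ := by
  obtain ⟨k, rfl⟩ : ∃ k, m = 1 + k := ⟨m - 1, by omega⟩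
  have hk : 1 + k - 1 = k := by omega
  have hW : finrank ℝ (EuclideanSpace ℝ (Fin (1 + k))) = 1 + k := by simp
  have key : ∀ (j : ℕ) (hj : j = k) (bY : Basis (Fin j) ℝ (Submodule.span ℝ {e0})ᗮ),
      |JJ bY (pb (fun y => T (th e0 y)) psi)| = κ := by
    rintro j rfl bY
    obtain ⟨n, hn, hnn⟩ := th_degree he (by omega) (by omega) bY (bE (1 + j))
    have h1 := hnn (pb T psi) (A.smooth_pb hT) (A.hom_pb hT)
    have h2 : JJ bY (pb (fun y => T (th e0 y)) psi) = JJ bY (pb (th e0) (pb T psi)) :=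
      JJ_congr _ fun y => pb_comp psi T.differentiableAt
        ((contDiff_th he).differentiable (by simp) _)
    rw [h2, h1, abs_mul, Ang.kappa_lin h A hT hx hP]
    have h3 : |(n : ℝ)| = 1 := by
      have : ((|n| : ℤ) : ℝ) = 1 := by rw [hn]; norm_num
      rwa [Int.cast_abs] at this
    rw [h3, one_mul]
  exact key _ hk bY

end Vale.Agent.P231.TW
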