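import Vale.Agent.P231.TW.Step

/-!
# P231, block TW: `|q|` divides `κ^n`

Let `Pi` be a smooth spread of `m`-planes of `V = ℝ^(m n)`, `m ≥ 3`, and `psi` an angular form:
of degree `m - 1`, scale invariant, with `d psi` vanishing along the leaves, and with integral
`± κ` over the unit spheres of the leaves. Then `k * q = ± κ^n` for an integer `k`, where `q` is
the integral of `psi (d psi)^(n-1)` over the unit sphere of `V`.
-/

set_option linter.unusedSectionVars false
set_option linter.unusedVariables false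

open Module MeasureTheory Set Metric Filter
open scoped ContDiff Topology

namespace Vale.Agent.P231.TW

open Fm WA FE

variable {V : Type*} [NormedAddCommGroup V] [InnerProductSpace ℝ V] [FiniteDimensional ℝ V]
  [MeasurableSpace V] [BorelSpace V]
variable {m : ℕ} {Pi : V → V →L[ℝ] V} {psi : V → Lam V} {κ : ℝ}

/-- the first stage: the unit sphere of one leaf -/
theorem stage_zero (h : Spread m Pi) (hm : 3 ≤ m) (A : Ang m Pi psi κ) {a : V} (ha : a ≠ 0)
    {e0 : EuclideanSpace ℝ (Fin m)} (he : ‖e0‖ = 1)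
    (bY : Basis (Fin (m - 1)) ℝ (Submodule.span ℝ {e0})ᗮ) :
    ∃ Φ : (Submodule.span ℝ {e0})ᗮ → V, Stage Pi psi κ m 0 bY (closedBall 0 1) Φ := by
  obtain ⟨io, hio⟩ := exists_leaf h ha
  have hYdim : finrank ℝ (Submodule.span ℝ {e0})ᗮ = m - 1 :=
    (finrank_eq_card_basis bY).trans (Fintype.card_fin _)
  let Φ : (Submodule.span ℝ {e0})ᗮ → V := fun y => io (th e0 y)
  have hΦ : ContDiff ℝ ∞ Φ := io.toContinuousLinearMap.contDiff.comp (contDiff_th he)
  have hn : ∀ y, ‖Φ y‖ = 1 := fun y => by rw [io.norm_map, norm_th he]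
  have h0 : ∀ y, Φ y ≠ 0 := fun y => by
    rw [← norm_ne_zero_iff, hn]
    exact one_ne_zero
  have hcon : ∀ y ∉ closedBall (0 : (Submodule.span ℝ {e0})ᗮ) 1, fderiv ℝ Φ y = 0 := by
    intro y hy
    have h1 : Φ =ᶠ[𝓝 y] fun _ => io e0 := by
      filter_upwards [th_const he hy] with y' hy'
      change io (th e0 y') = io e0
      rw [hy']
    rw [h1.fderiv_eq, fderiv_const_apply]
  refine ⟨Φ, ⟨hΦ, hn, isCompact_closedBall _ _, fun y hy => ?_⟩, fun y => ?_, fun y => ?_, ?_, ?_⟩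
  · rw [hcon y hy, rk_zero]
    omega
  · by_cases hy : y ∈ closedBall (0 : (Submodule.span ℝ {e0})ᗮ) 1
    · exact ⟨y, hy, rfl⟩
    · rw [mem_closedBall_zero_iff, not_le] at hy
      have hy0 : ‖y‖ ≠ 0 := by linarith
      have h1 : ‖(‖y‖⁻¹ • y)‖ = 1 := by
        rw [norm_smul, norm_inv, norm_norm, inv_mul_cancel₀ hy0]
      refine ⟨‖y‖⁻¹ • y, ?_, ?_⟩
      · rw [mem_closedBall_zero_iff, h1]
      · change io (th e0 _) = io (th e0 _)
        rw [th_out he h1.ge, th_out he hy.le]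
  · have h1 := Spread.nrk_le h (f := Φ) (c := fun _ => a) (z := y)
      (hΦ.differentiable (by simp) y) (differentiableAt_const a) (h0 y) ha
      (Eventually.of_forall fun y => hio _)
    rw [nrk_const] at h1
    omega
  · omega
  · rw [zero_add, pow_one, ← Ang.kappa_th h A hm he bY (T := io.toContinuousLinearMap)
      io.injective ha hio]
    congr 1
    refine JJ_congr _ fun y => ?_
    change pull _ (psi _ * extd psi _ ^ 0) = pull _ (psi _)
    rw [pow_zero, mul_one]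
    rfl

/-- all stages -/
theorem exists_stage (h : Spread m Pi) (hm : 3 ≤ m) (A : Ang m Pi psi κ) {n : ℕ}
    (hV : finrank ℝ V = m * n) (j : ℕ) (hj : j < n) :
    ∃ (X : Type) (_ : NormedAddCommGroup X) (_ : NormedSpace ℝ X) (_ : FiniteDimensional ℝ X)
      (_ : MeasurableSpace X) (_ : BorelSpace X) (k : ℕ) (bX : Basis (Fin k) ℝ X) (K : Set X)
      (Φ : X → V), Stage Pi psi κ m j bX K Φ := by
  have hpos : 0 < m * n := Nat.mul_pos (by omega) (by omega)
  have : Nontrivial V := Module.nontrivial_of_finrank_pos (R := ℝ) (by omega)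
  obtain ⟨a, ha⟩ := exists_ne (0 : V)
  obtain ⟨e0, he⟩ : ∃ e0 : EuclideanSpace ℝ (Fin m), ‖e0‖ = 1 :=
    ⟨EuclideanSpace.single (⟨0, by omega⟩ : Fin m) 1, by simp⟩
  have hY : finrank ℝ (Submodule.span ℝ {e0})ᗮ = m - 1 := by
    have h1 := finrank_Y he
    rw [finrank_euclideanSpace_fin] at h1
    omega
  obtain ⟨bY⟩ : Nonempty (Basis (Fin (m - 1)) ℝ (Submodule.span ℝ {e0})ᗮ) :=
    ⟨finBasisOfFinrankEq ℝ _ hY⟩
  induction j with
  | zero =>
    obtain ⟨Φ, hΦ⟩ := stage_zero h hm A ha he bY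
    exact ⟨_, _, _, inferInstance, _, inferInstance, _, bY, _, Φ, hΦ⟩
  | succ j ih =>
    obtain ⟨X, i1, i2, i3, i4, i5, k, bX, K, Φ, S⟩ := ih (by omega)
    obtain ⟨K', Φ', S'⟩ := S.step h hm A (by
      rw [S.dim, hV]
      exact Nat.mul_lt_mul_of_pos_left (by omega) (by omega)) he bY
    exact ⟨_, _, _, inferInstance, _, inferInstance, _, _, K', Φ', S'⟩

/-- **`k * q = ± κ^n`** -/
theorem tower (h : Spread m Pi) (hm : 3 ≤ m) (A : Ang m Pi psi κ) {n : ℕ} (hn : 0 < n)
    (hV : finrank ℝ V = m * n) {N : ℕ} (b : Basis (Fin N) ℝ V) {r : V → ℝ} {K : Set V}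
    (hr : Q.Cut r K) :
    ∃ k : ℤ, |(k : ℝ)| * |∫ y, evalForm (Q.dR r y * Q.om psi (n - 1) y) b ∂b.addHaar| = κ ^ n := by
  obtain ⟨X, i1, i2, i3, i4, i5, k, bX, K', Φ, S⟩ := exists_stage h hm A hV (n - 1) (by omega)
  have hN : finrank ℝ V = N := (finrank_eq_card_basis b).trans (Fintype.card_fin N)
  have hk : k + 1 = m * n := by
    rw [S.dim]
    congr 1
    omega
  obtain rfl : N = 1 + k := by omega
  have hpos : m ≤ m * n := Nat.le_mul_of_pos_right m hn
  obtain ⟨d, hd⟩ := S.cyc.degree (by omega) bX b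
  have hhom : Hom (Q.om psi (n - 1)) := by
    intro y hy
    have hry : rad y ≠ 0 := by
      rw [← norm_ne_zero_iff, norm_rad hy]
      exact one_ne_zero
    have e1 : pb rad (extd psi) y = extd psi y := by
      have h1 : extd (pb rad psi) y = pb rad (extd psi) y :=
        extd_pb ((contDiffAt_rad hy).of_le two_le_inf) (A.diff hry)
      rw [← h1]
      refine extd_congr ?_
      filter_upwards [isOpen_compl_singleton.mem_nhds hy] with z hz using A.hom z hz
    have e2 : pb rad (Q.om psi (n - 1)) y = pb rad psi y * pb rad (extd psi) y ^ (n - 1) := by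
      change pull _ (psi _ * extd psi _ ^ (n - 1)) = _
      rw [map_mul, map_pow]
      rfl
    rw [e2, e1, A.hom y hy]
    rfl
  have h1 := hd (Q.om psi (n - 1)) (A.smooth_om _) hhom
  have h2 := S.int
  rw [h1, abs_mul] at h2
  refine ⟨d, ?_⟩
  have h3 : ∀ y : V, y ≠ 0 → evalForm (extd (Q.om psi (n - 1)) y) b = 0 := by
    intro y hy
    refine Q.evalForm_eq_zero_of_iprod b hy ?_
    rw [A.extd_om _ hy]
    exact Q.iprod_pow_eq_zero (A.basic y hy y (h.self y hy)) _
  rw [cut_indep b.addHaar b (A.smooth_om (n - 1)) h3 hr cut_rst]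
  have h4 : n - 1 + 1 = n := by omega
  rw [h4] at h2
  exact h2

/-- the bound -/
theorem abs_le_kappa_pow (h : Spread m Pi) (hm : 3 ≤ m) (A : Ang m Pi psi κ) {n : ℕ} (hn : 0 < n)
    (hV : finrank ℝ V = m * n) {N : ℕ} (b : Basis (Fin N) ℝ V) {r : V → ℝ} {K : Set V}
    (hr : Q.Cut r K) (hκ : κ ≠ 0) :
    |∫ y, evalForm (Q.dR r y * Q.om psi (n - 1) y) b ∂b.addHaar| ≤ κ ^ n ∧
      ∫ y, evalForm (Q.dR r y * Q.om psi (n - 1) y) b ∂b.addHaar ≠ 0 := by
  obtain ⟨k, hk⟩ := tower h hm A hn hV b hr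
  have h0 : κ ^ n ≠ 0 := pow_ne_zero _ hκ
  have hk0 : k ≠ 0 := by
    rintro rfl
    rw [Int.cast_zero, abs_zero, zero_mul] at hk
    exact h0 hk.symm
  have hk1 : (1 : ℝ) ≤ |(k : ℝ)| := by
    have : (1 : ℤ) ≤ |k| := Int.one_le_abs hk0
    have h2 : ((1 : ℤ) : ℝ) ≤ ((|k| : ℤ) : ℝ) := Int.cast_le.2 this
    rwa [Int.cast_one, Int.cast_abs] at h2
  constructor
  · rw [← hk]
    exact le_mul_of_one_le_left (abs_nonneg _) hk1
  · intro h1
    rw [h1, abs_zero, mul_zero] at hk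
    exact h0 hk.symm

end Vale.Agent.P231.TW
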