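import Vale.Agent.P231.Fm.Degree
import Vale.Agent.P231.WA.Deg

/-!
# P231, block TW (tower of spheres): rank conditions, Stokes and the degree of a map which has
rank at most `dim - 2` outside a compact set
-/

set_option linter.unusedSectionVars false
set_option linter.unusedVariables false

open Module MeasureTheory Set Metric Filter
open scoped ContDiff Topology

namespace Vale.Agent.P231.TW

open Fm WA

variable {E : Type*} [NormedAddCommGroup E] [NormedSpace ℝ E] [FiniteDimensional ℝ E]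
variable {F : Type*} [NormedAddCommGroup F] [NormedSpace ℝ F] [FiniteDimensional ℝ F]
variable {G : Type*} [NormedAddCommGroup G] [NormedSpace ℝ G] [FiniteDimensional ℝ G]

/-- the rank of a continuous linear map -/
noncomputable def rk (L : E →L[ℝ] F) : ℕ := finrank ℝ (LinearMap.range (L : E →ₗ[ℝ] F))

theorem rk_le (L : E →L[ℝ] F) : rk L ≤ finrank ℝ E :=
  LinearMap.finrank_range_le (L : E →ₗ[ℝ] F)

theorem rk_le' (L : E →L[ℝ] F) : rk L ≤ finrank ℝ F := Submodule.finrank_le _

theorem rk_zero : rk (0 : E →L[ℝ] F) = 0 := by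
  unfold rk
  have : LinearMap.range ((0 : E →L[ℝ] F) : E →ₗ[ℝ] F) = ⊥ := LinearMap.range_zero
  rw [this, finrank_bot]

theorem rk_comp_left (L : E →L[ℝ] F) (L' : F →L[ℝ] G) : rk (L' ∘L L) ≤ rk L := by
  unfold rk
  have h : LinearMap.range ((L' ∘L L : E →L[ℝ] G) : E →ₗ[ℝ] G) =
      (LinearMap.range (L : E →ₗ[ℝ] F)).map (L' : F →ₗ[ℝ] G) := by
    rw [← LinearMap.range_comp]
    rfl
  rw [h]
  exact Submodule.finrank_map_le _ _

theorem rk_comp_right (L : E →L[ℝ] F) (L' : F →L[ℝ] G) : rk (L' ∘L L) ≤ rk L' :=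
  Submodule.finrank_mono (LinearMap.range_comp_le_range (L : E →ₗ[ℝ] F) (L' : F →ₗ[ℝ] G))

theorem rk_add (L L' : E →L[ℝ] F) : rk (L + L') ≤ rk L + rk L' := by
  unfold rk
  refine (Submodule.finrank_mono (t := LinearMap.range (L : E →ₗ[ℝ] F) ⊔
    LinearMap.range (L' : E →ₗ[ℝ] F)) ?_).trans (Submodule.finrank_add_le_finrank_add_finrank _ _)
  rintro _ ⟨x, rfl⟩
  exact Submodule.add_mem_sup ⟨x, rfl⟩ ⟨x, rfl⟩

/-- forms of degree greater than the rank have zero pullback -/
theorem prt_pull_eq_zero {L : E →L[ℝ] F} {k : ℕ} (h : rk L < k) (w : Lam F) :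
    prt k (Fm.pull L w) = 0 := by
  have h1 : L = (LinearMap.range (L : E →ₗ[ℝ] F)).subtypeL.comp
      (L.codRestrict (LinearMap.range (L : E →ₗ[ℝ] F)) fun x => ⟨x, rfl⟩) := by
    ext x
    rfl
  rw [h1, pull_comp_apply, prt_pull, prt_eq_zero h, map_zero]

theorem det_eq_zero_of_rk {L : E →L[ℝ] E} (h : rk L < finrank ℝ E) : L.det = 0 := by
  by_contra h0
  have h1 : IsUnit (LinearMap.det (L : E →ₗ[ℝ] E)) := isUnit_iff_ne_zero.2 h0
  have h2 : LinearMap.range (L : E →ₗ[ℝ] E) = ⊤ := by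
    have h3 := LinearEquiv.range (LinearEquiv.ofIsUnitDet (v := Module.finBasis ℝ E)
      (v' := Module.finBasis ℝ E) (f := (L : E →ₗ[ℝ] E)) (by
        rwa [LinearMap.det_toMatrix]))
    exact h3
  unfold rk at h
  rw [h2, finrank_top] at h
  exact lt_irrefl _ h

section Stokes

variable [MeasurableSpace E] [BorelSpace E]

/-- Stokes, seeing only the part of degree `d - 1` -/
theorem stokes_prt (μ : Measure E) [μ.IsAddHaarMeasure] {k : ℕ} (b : Fin (k + 1) → E)
    {w : E → Lam E} (hw : ContDiff ℝ 1 w) {K : Set E} (hK : IsCompact K)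
    (hc : ∀ x ∉ K, prt k (w x) = 0) : ∫ y, evalForm (extd w y) b ∂μ = 0 := by
  have h1 : ContDiff ℝ 1 fun x => prtL k (w x) := (prtL (E := E) k).contDiff.comp hw
  have h2 : HasCompactSupport fun x => prtL k (w x) := HasCompactSupport.intro hK hc
  have h3 := integral_evalForm_extd μ b h1 h2
  rw [← h3]
  congr 1
  funext y
  have h4 : HasFDerivAt (fun x => prtL k (w x)) (prtL k ∘L fderiv ℝ w y) y :=
    (prtL (E := E) k).hasFDerivAt.comp y (hw.differentiable (by simp) y).hasFDerivAt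
  rw [extd_of h4, ← prt_succ_dLin, evalForm_prt]
  rfl

end Stokes

end Vale.Agent.P231.TW
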