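import Vale.Agent.P231.TW.Prod

/-!
# P231, block TW: the integer degree of a map between two spaces of the same dimension
-/

set_option linter.unusedSectionVars false
set_option linter.unusedVariables false

open Module MeasureTheory Set Metric Filter
open scoped ContDiff Topology

namespace Vale.Agent.P231.TW

open Fm WA

variable {Z : Type*} [NormedAddCommGroup Z] [NormedSpace ℝ Z] [FiniteDimensional ℝ Z]
  [MeasurableSpace Z] [BorelSpace Z]
variable {V : Type*} [NormedAddCommGroup V] [NormedSpace ℝ V] [FiniteDimensional ℝ V]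
  [MeasurableSpace V] [BorelSpace V]

theorem rk_comp_equiv {Z' : Type*} [NormedAddCommGroup Z'] [NormedSpace ℝ Z']
    [FiniteDimensional ℝ Z'] (L : Z' ≃L[ℝ] Z) (T : Z →L[ℝ] V) :
    rk (T ∘L (L : Z' →L[ℝ] Z)) ≤ rk T := rk_comp_right _ _

/-- transport to an endomorphism of `V` -/
theorem JJ_transport {N : ℕ} (bZ : Basis (Fin N) ℝ Z) (bV : Basis (Fin N) ℝ V) {Ψ : Z → V}
    (hΨ : ContDiff ℝ ∞ Ψ) (L : V ≃L[ℝ] Z) (hL : bV.map L.toLinearEquiv = bZ) (W : V → Lam V) :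
    JJ bZ (pb Ψ W) =
      ∫ v, evalForm (W (Ψ (L v))) bV * (fderiv ℝ (fun v => Ψ (L v)) v).det ∂bV.addHaar := by
  rw [← hL, ← JJ_pb_equiv]
  unfold JJ
  refine integral_congr_ae (Eventually.of_forall fun v => ?_)
  change evalForm (pb L (pb Ψ W) v) bV = _
  rw [← pb_comp W (hΨ.differentiable (by simp) _) L.differentiableAt, pb, evalForm_pull_det,
    mul_comm]

variable {Ψ : Z → V} {A : Set Z}

/-- the integer degree -/
theorem deg_map {N : ℕ} (hN : 0 < N) (bZ : Basis (Fin N) ℝ Z) (bV : Basis (Fin N) ℝ V)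
    (hΨ : ContDiff ℝ ∞ Ψ) (hA : ∀ K, IsCompact K → IsCompact (A ∩ Ψ ⁻¹' K))
    (h2 : ∀ x ∉ A, rk (fderiv ℝ Ψ x) + 2 ≤ N) :
    ∃ n : ℤ, ∀ W : V → Lam V, ContDiff ℝ ∞ W → HasCompactSupport W →
      JJ bZ (pb Ψ W) = n * JJ bV W := by
  have hfV : finrank ℝ V = N := finrank_eq_card_basis bV |>.trans (Fintype.card_fin N)
  let L : V ≃L[ℝ] Z := (bV.equiv bZ (Equiv.refl _)).toContinuousLinearEquiv
  have hL : bV.map L.toLinearEquiv = bZ := by
    refine Basis.eq_of_apply_eq fun i => ?_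
    rw [Basis.map_apply]
    change (bV.equiv bZ (Equiv.refl _)) (bV i) = bZ i
    rw [Basis.equiv_apply]
    rfl
  have hf : ContDiff ℝ ∞ fun v => Ψ (L v) := hΨ.comp L.contDiff
  have hd : ∀ v, fderiv ℝ (fun v => Ψ (L v)) v = fderiv ℝ Ψ (L v) ∘L (L : V →L[ℝ] Z) := fun v =>
    (((hΨ.differentiable (by simp) (L v)).hasFDerivAt).comp v L.hasFDerivAt).fderiv
  obtain ⟨n, hn⟩ := exists_int_degree2 bV.addHaar hf (A := L ⁻¹' A)
    (fun K hK => by
      have h1 : L ⁻¹' A ∩ (fun v => Ψ (L v)) ⁻¹' K = L.symm '' (A ∩ Ψ ⁻¹' K) := by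
        rw [ContinuousLinearEquiv.image_symm_eq_preimage]
        rfl
      rw [h1]
      exact (hA K hK).image L.symm.continuous)
    (fun v hv => by
      rw [hd, hfV]
      exact (Nat.add_le_add_right (rk_comp_right _ _) 2).trans (h2 (L v) hv))
    (by omega)
  refine ⟨n, fun W hW hWc => ?_⟩
  rw [JJ_transport bZ bV hΨ L hL W]
  exact hn (fun y => evalL bV (W y)) ((evalL bV).contDiff.comp hW)
    (hWc.comp_left (g := evalL bV) (map_zero _))

/-- the degree is `±1` if there is a regular value with one preimage -/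
theorem deg_map_one {N : ℕ} (hN : 0 < N) (bZ : Basis (Fin N) ℝ Z) (bV : Basis (Fin N) ℝ V)
    (hΨ : ContDiff ℝ ∞ Ψ) (hA : ∀ K, IsCompact K → IsCompact (A ∩ Ψ ⁻¹' K))
    (h2 : ∀ x ∉ A, rk (fderiv ℝ Ψ x) + 2 ≤ N) {x₀ : Z}
    (hx₀ : Function.Injective (fderiv ℝ Ψ x₀)) (huniq : ∀ x ∈ A, Ψ x = Ψ x₀ → x = x₀) :
    ∃ n : ℤ, |n| = 1 ∧ ∀ W : V → Lam V, ContDiff ℝ ∞ W → HasCompactSupport W →
      JJ bZ (pb Ψ W) = n * JJ bV W := by
  have hfV : finrank ℝ V = N := finrank_eq_card_basis bV |>.trans (Fintype.card_fin N)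
  let L : V ≃L[ℝ] Z := (bV.equiv bZ (Equiv.refl _)).toContinuousLinearEquiv
  have hL : bV.map L.toLinearEquiv = bZ := by
    refine Basis.eq_of_apply_eq fun i => ?_
    rw [Basis.map_apply]
    change (bV.equiv bZ (Equiv.refl _)) (bV i) = bZ i
    rw [Basis.equiv_apply]
    rfl
  have hf : ContDiff ℝ ∞ fun v => Ψ (L v) := hΨ.comp L.contDiff
  have hd : ∀ v, fderiv ℝ (fun v => Ψ (L v)) v = fderiv ℝ Ψ (L v) ∘L (L : V →L[ℝ] Z) := fun v =>
    (((hΨ.differentiable (by simp) (L v)).hasFDerivAt).comp v L.hasFDerivAt).fderiv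
  have hdet : (fderiv ℝ (fun v => Ψ (L v)) (L.symm x₀)).det ≠ 0 := by
    rw [hd, L.apply_symm_apply]
    intro h0
    have h3 := LinearMap.bot_lt_ker_of_det_eq_zero (f := ((fderiv ℝ Ψ x₀ ∘L (L : V →L[ℝ] Z) :
      V →L[ℝ] V) : V →ₗ[ℝ] V)) h0
    obtain ⟨v, hv, hv0⟩ := Submodule.exists_mem_ne_zero_of_ne_bot h3.ne'
    apply hv0
    have h4 : fderiv ℝ Ψ x₀ (L v) = fderiv ℝ Ψ x₀ 0 := by
      rw [map_zero]
      exact hv
    exact L.map_eq_zero_iff.1 (hx₀ h4)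
  obtain ⟨n, hn1, hn⟩ := exists_int_degree2_one bV.addHaar hf (A := L ⁻¹' A)
    (fun K hK => by
      have h1 : L ⁻¹' A ∩ (fun v => Ψ (L v)) ⁻¹' K = L.symm '' (A ∩ Ψ ⁻¹' K) := by
        rw [ContinuousLinearEquiv.image_symm_eq_preimage]
        rfl
      rw [h1]
      exact (hA K hK).image L.symm.continuous)
    (fun v hv => by
      rw [hd, hfV]
      exact (Nat.add_le_add_right (rk_comp_right _ _) 2).trans (h2 (L v) hv))
    (by omega) hdet (fun v hv hve => by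
      rw [L.apply_symm_apply] at hve
      rw [← huniq (L v) hv hve, L.symm_apply_apply])
  refine ⟨n, hn1, fun W hW hWc => ?_⟩
  rw [JJ_transport bZ bV hΨ L hL W]
  exact hn (fun y => evalL bV (W y)) ((evalL bV).contDiff.comp hW)
    (hWc.comp_left (g := evalL bV) (map_zero _))

end Vale.Agent.P231.TW
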