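import Vale.Agent.P231.TW.DegMap
import Vale.Agent.P231.Fm.DegSphere

/-!
# P231, block TW: cycles on the sphere, and their integer degree
-/

set_option linter.unusedSectionVars false
set_option linter.unusedVariables false

open Module MeasureTheory Set Metric Filter
open scoped ContDiff Topology

namespace Vale.Agent.P231.TW

open Fm WA

/-! ### the radial function -/

/-- a smooth function, zero for `s ≤ 0`, strictly increasing for `s ≥ 0` -/
noncomputable def bb (s : ℝ) : ℝ := s * expNegInvGlue s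

theorem contDiff_bb : ContDiff ℝ ∞ bb := contDiff_id.mul (expNegInvGlue.contDiff (n := ⊤))

theorem bb_nonpos {s : ℝ} (hs : s ≤ 0) : bb s = 0 := by
  rw [bb, expNegInvGlue.zero_of_nonpos hs, mul_zero]

theorem bb_pos {s : ℝ} (hs : 0 < s) : 0 < bb s := mul_pos hs (expNegInvGlue.pos_of_pos hs)

theorem bb_nonneg (s : ℝ) : 0 ≤ bb s := by
  rcases le_or_gt s 0 with h | h
  · rw [bb_nonpos h]
  · exact (bb_pos h).le

theorem bb_strict {s t : ℝ} (hs : 0 ≤ s) (h : s < t) : bb s < bb t := by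
  have h1 : expNegInvGlue s ≤ expNegInvGlue t := expNegInvGlue.monotone h.le
  have h2 : 0 < expNegInvGlue t := expNegInvGlue.pos_of_pos (hs.trans_lt h)
  unfold bb
  nlinarith

theorem bb_inj {s t : ℝ} (hs : 0 ≤ s) (ht : 0 ≤ t) (h : bb s = bb t) : s = t := by
  rcases lt_trichotomy s t with h1 | h1 | h1
  · exact absurd h (bb_strict hs h1).ne
  · exact h1
  · exact absurd h.symm (bb_strict ht h1).ne

theorem bb_bound (R : ℝ) : ∃ S : ℝ, 0 ≤ S ∧ ∀ s, bb s ≤ R → s ≤ S := by
  have h0 : 0 < expNegInvGlue 1 := expNegInvGlue.pos_of_pos one_pos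
  refine ⟨max 1 (R / expNegInvGlue 1), le_max_of_le_left zero_le_one, fun s hs => ?_⟩
  rcases le_or_gt s 1 with h | h
  · exact le_max_of_le_left h
  · refine le_max_of_le_right ?_
    rw [le_div_iff₀ h0]
    have h1 : expNegInvGlue 1 ≤ expNegInvGlue s := expNegInvGlue.monotone h.le
    have h2 : s * expNegInvGlue 1 ≤ s * expNegInvGlue s := by gcongr
    exact h2.trans hs

/-- the derivative at `1` -/
theorem hasDerivAt_bb_one : HasDerivAt bb (2 * Real.exp (-1)) 1 := by
  have h1 : HasDerivAt (fun s : ℝ => s * Real.exp (-s⁻¹)) (2 * Real.exp (-1)) 1 := by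
    have h2 : HasDerivAt (fun s : ℝ => -s⁻¹) (-(-(1 ^ 2)⁻¹)) 1 := (hasDerivAt_inv one_ne_zero).neg
    have h3 : HasDerivAt (fun s : ℝ => s * Real.exp (-s⁻¹))
        (1 * Real.exp (-1⁻¹) + 1 * (Real.exp (-1⁻¹) * -(-(1 ^ 2)⁻¹))) 1 :=
      (hasDerivAt_id (1 : ℝ)).mul h2.exp
    have h4 : 1 * Real.exp (-1⁻¹) + 1 * (Real.exp (-1⁻¹) * -(-(1 ^ 2 : ℝ)⁻¹)) =
        2 * Real.exp (-1) := by
      rw [inv_one]
      ring
    rwa [h4] at h3
  refine h1.congr_of_eventuallyEq ?_
  filter_upwards [lt_mem_nhds one_pos] with s hs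
  rw [bb, expNegInvGlue, if_neg (not_le.2 hs)]

/-- the cutoff along the ray -/
noncomputable def h0 (s : ℝ) : ℝ := Real.smoothTransition (bb s - 2)

theorem contDiff_h0 : ContDiff ℝ ∞ h0 :=
  (Real.smoothTransition.contDiff (n := ⊤)).comp (contDiff_bb.sub contDiff_const)

theorem h0_deriv_zero {s : ℝ} (hs : bb s < 2) : deriv h0 s = 0 := by
  have h1 : h0 =ᶠ[𝓝 s] fun _ => 0 := by
    filter_upwards [(isOpen_lt contDiff_bb.continuous continuous_const).mem_nhds hs] with t ht
    exact Real.smoothTransition.zero_of_nonpos (by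
      have : bb t < 2 := ht
      linarith)
  rw [h1.deriv_eq, deriv_const]

theorem h0_deriv_zero' {s : ℝ} (hs : 3 < bb s) : deriv h0 s = 0 := by
  have h1 : h0 =ᶠ[𝓝 s] fun _ => 1 := by
    filter_upwards [(isOpen_lt continuous_const contDiff_bb.continuous).mem_nhds hs] with t ht
    exact Real.smoothTransition.one_of_one_le (by
      have : 3 < bb t := ht
      linarith)
  rw [h1.deriv_eq, deriv_const]

theorem exists_h0_supp : ∃ S : ℝ, 0 ≤ S ∧ ∀ s ∉ Icc 0 S, deriv h0 s = 0 := by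
  obtain ⟨S, hS, h⟩ := bb_bound 3
  refine ⟨S, hS, fun s hs => ?_⟩
  rw [mem_Icc, not_and_or, not_le, not_le] at hs
  rcases hs with hs | hs
  · exact h0_deriv_zero (by rw [bb_nonpos hs.le]; norm_num)
  · refine h0_deriv_zero' ?_
    by_contra h1
    exact absurd (h s (not_lt.1 h1)) (not_le.2 hs)

theorem integral_h0 : ∫ s, deriv h0 s = 1 := by
  obtain ⟨S, hS, h⟩ := exists_h0_supp
  have hc : Continuous (deriv h0) := contDiff_h0.continuous_deriv (by simp)
  have hi : Integrable (deriv h0) := hc.integrable_of_hasCompactSupport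
    (HasCompactSupport.intro isCompact_Icc h)
  have h1 : Tendsto h0 atBot (𝓝 0) := by
    refine tendsto_const_nhds.congr' ?_
    filter_upwards [Iic_mem_atBot (0 : ℝ)] with s hs
    rw [h0, bb_nonpos hs, Real.smoothTransition.zero_of_nonpos (by norm_num)]
  obtain ⟨S', hS', h'⟩ := bb_bound 3
  have h2 : Tendsto h0 atTop (𝓝 1) := by
    refine tendsto_const_nhds.congr' ?_
    filter_upwards [Ioi_mem_atTop S'] with s hs
    rw [h0, Real.smoothTransition.one_of_one_le]
    have : 3 < bb s := by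
      by_contra h3
      exact absurd (h' s (not_lt.1 h3)) (not_le.2 hs)
    linarith
  have h3 := integral_of_hasDerivAt_of_tendsto (fun s =>
    (contDiff_h0.differentiable (by simp) s).hasDerivAt) hi h1 h2
  rw [h3, sub_zero]

/-! ### the basis of the line -/

/-- the basis of the line -/
noncomputable def bR : Basis (Fin 1) ℝ ℝ := Basis.singleton (Fin 1) ℝ

theorem bR_apply (i : Fin 1) : bR i = 1 := Basis.singleton_apply _ _ _

theorem addHaar_bR : bR.addHaar = volume := by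
  have := (OrthonormalBasis.singleton (Fin 1) ℝ).addHaar_eq_volume
  rwa [OrthonormalBasis.toBasis_singleton] at this

/-! ### forms near the sphere -/

section V

variable {V : Type*} [NormedAddCommGroup V] [InnerProductSpace ℝ V] [FiniteDimensional ℝ V]
  [MeasurableSpace V] [BorelSpace V]

theorem contDiff_cutmul {r : V → ℝ} {K : Set V} (hr : Q.Cut r K) {om : V → Lam V}
    (hom : ContDiffOn ℝ ∞ om {0}ᶜ) : ContDiff ℝ ∞ fun y => Q.dR r y * om y := by
  refine contDiff_iff_contDiffAt.2 fun y => ?_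
  rcases eq_or_ne y 0 with rfl | hy
  · have h1 : (fun y => Q.dR r y * om y) =ᶠ[𝓝 (0 : V)] fun _ => 0 := by
      filter_upwards [hr.dR_near] with z hz
      rw [hz, zero_mul]
    exact contDiffAt_const.congr_of_eventuallyEq h1
  · exact (Q.contDiff_dR hr.smooth).contDiffAt.mul
      (hom.contDiffAt (isOpen_compl_singleton.mem_nhds hy))

theorem compact_cutmul {r : V → ℝ} {K : Set V} (hr : Q.Cut r K) (om : V → Lam V) :
    HasCompactSupport fun y => Q.dR r y * om y :=
  HasCompactSupport.intro hr.compact fun y hy => by rw [hr.dR_out hy, zero_mul]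

end V

/-! ### cycles -/

variable {X : Type*} [NormedAddCommGroup X] [NormedSpace ℝ X] [FiniteDimensional ℝ X]
  [MeasurableSpace X] [BorelSpace X]
variable {V : Type*} [NormedAddCommGroup V] [InnerProductSpace ℝ V] [FiniteDimensional ℝ V]
  [MeasurableSpace V] [BorelSpace V]

/-- a smooth map to the unit sphere, of rank at most `dim - 2` outside a compact set -/
structure Cyc (K : Set X) (Φ : X → V) : Prop where
  smooth : ContDiff ℝ ∞ Φ
  norm : ∀ x, ‖Φ x‖ = 1
  compact : IsCompact K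
  rank : ∀ x ∉ K, rk (fderiv ℝ Φ x) + 2 ≤ finrank ℝ X

/-- the cone map -/
noncomputable def cn (Φ : X → V) (z : X × ℝ) : V := bb z.2 • Φ z.1

variable {K : Set X} {Φ : X → V}

theorem Cyc.ne (h : Cyc K Φ) (x : X) : Φ x ≠ 0 := by
  intro h1
  have := h.norm x
  rw [h1, norm_zero] at this
  exact zero_ne_one this

theorem Cyc.contDiff_cn (h : Cyc K Φ) : ContDiff ℝ ∞ (cn Φ) :=
  (contDiff_bb.comp contDiff_snd).smul (h.smooth.comp contDiff_fst)

theorem Cyc.norm_cn (h : Cyc K Φ) (z : X × ℝ) : ‖cn Φ z‖ = bb z.2 := by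
  rw [cn, norm_smul, h.norm, mul_one, Real.norm_eq_abs, abs_of_nonneg (bb_nonneg _)]

theorem Cyc.fderiv_cn (h : Cyc K Φ) (z : X × ℝ) :
    fderiv ℝ (cn Φ) z = bb z.2 • (fderiv ℝ Φ z.1 ∘L ContinuousLinearMap.fst ℝ X ℝ) +
      (deriv bb z.2 • ContinuousLinearMap.snd ℝ X ℝ).smulRight (Φ z.1) := by
  have h1 : HasFDerivAt (fun z : X × ℝ => bb z.2) (deriv bb z.2 • ContinuousLinearMap.snd ℝ X ℝ) z := by
    have h2 := (contDiff_bb.differentiable (by simp) z.2).hasDerivAt
    exact h2.comp_hasFDerivAt z hasFDerivAt_snd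
  have h3 : HasFDerivAt (fun z : X × ℝ => Φ z.1) (fderiv ℝ Φ z.1 ∘L ContinuousLinearMap.fst ℝ X ℝ) z :=
    ((h.smooth.differentiable (by simp) z.1).hasFDerivAt).comp z hasFDerivAt_fst
  exact (h1.smul h3).fderiv

theorem Cyc.proper (h : Cyc K Φ) (C : Set V) (hC : IsCompact C) :
    IsCompact (K ×ˢ Ici (0 : ℝ) ∩ cn Φ ⁻¹' C) := by
  obtain ⟨R, hR⟩ := hC.isBounded.subset_closedBall 0
  obtain ⟨S, hS0, hS⟩ := bb_bound R
  refine (h.compact.prod (isCompact_Icc (a := (0 : ℝ)) (b := S))).of_isClosed_subset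
    ((h.compact.isClosed.prod isClosed_Ici).inter (hC.isClosed.preimage h.contDiff_cn.continuous)) ?_
  rintro z ⟨⟨h1, h2⟩, h3⟩
  refine ⟨h1, h2, hS _ ?_⟩
  have h4 := hR h3
  rwa [mem_closedBall_zero_iff, h.norm_cn] at h4

theorem rk_smulRight (a : X →L[ℝ] ℝ) (v : V) : rk (a.smulRight v) ≤ 1 := by
  have h1 : a.smulRight v = ((1 : ℝ →L[ℝ] ℝ).smulRight v) ∘L a := by
    ext x
    simp
  rw [h1]
  exact (rk_comp_right _ _).trans ((rk_le _).trans (by simp))

theorem rk_smul (c : ℝ) (L : X →L[ℝ] V) : rk (c • L) ≤ rk L := by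
  have h1 : c • L = (c • ContinuousLinearMap.id ℝ V) ∘L L := by
    ext x
    simp
  rw [h1]
  exact rk_comp_left _ _

theorem Cyc.rank_cn (h : Cyc K Φ) (hX : 0 < finrank ℝ X) (z : X × ℝ)
    (hz : z ∉ K ×ˢ Ici (0 : ℝ)) : rk (fderiv ℝ (cn Φ) z) + 2 ≤ 1 + finrank ℝ X := by
  by_cases hK : z.1 ∈ K
  · have h1 : z.2 < 0 := by
      by_contra h2
      exact hz ⟨hK, not_lt.1 h2⟩
    have h3 : cn Φ =ᶠ[𝓝 z] fun _ => 0 := by
      have h4 : ∀ᶠ w : X × ℝ in 𝓝 z, w.2 < 0 :=
        (isOpen_lt continuous_snd continuous_const).mem_nhds h1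
      filter_upwards [h4] with w hw
      rw [cn, bb_nonpos hw.le, zero_smul]
    rw [h3.fderiv_eq, fderiv_const_apply, rk_zero]
    omega
  · have h1 := h.rank z.1 hK
    rw [h.fderiv_cn]
    have h2 := rk_add (bb z.2 • (fderiv ℝ Φ z.1 ∘L ContinuousLinearMap.fst ℝ X ℝ))
      ((deriv bb z.2 • ContinuousLinearMap.snd ℝ X ℝ).smulRight (Φ z.1))
    have h3 := rk_smulRight (deriv bb z.2 • ContinuousLinearMap.snd ℝ X ℝ) (Φ z.1)
    have h4 := rk_smul (bb z.2) (fderiv ℝ Φ z.1 ∘L ContinuousLinearMap.fst ℝ X ℝ)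
    have h5 := rk_comp_right (ContinuousLinearMap.fst ℝ X ℝ) (fderiv ℝ Φ z.1)
    omega

/-- scale invariant forms -/
def Hom (om : V → Lam V) : Prop := ∀ y ≠ 0, pb rad om y = om y

theorem Hom.pb_smul {om : V → Lam V} (h : Hom om) {Z : Type*} [NormedAddCommGroup Z]
    [NormedSpace ℝ Z] [FiniteDimensional ℝ Z] {f g : Z → V} {z : Z} (hf : DifferentiableAt ℝ f z)
    (hg : DifferentiableAt ℝ g z) (hf0 : f z ≠ 0)
    (hfg : ∀ᶠ y in 𝓝 z, rad (f y) = rad (g y)) (hg0 : g z ≠ 0) : pb f om z = pb g om z := by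
  have h1 : ∀ {f : Z → V}, DifferentiableAt ℝ f z → f z ≠ 0 →
      pb f om z = pb (fun y => rad (f y)) om z := by
    intro f hf hf0
    have hr : DifferentiableAt ℝ (rad : V → V) (f z) :=
      (contDiffAt_rad hf0).differentiableAt (by simp)
    rw [pb_comp om hr hf]
    change pull (fderiv ℝ f z) (om (f z)) = pull (fderiv ℝ f z) (pb rad om (f z))
    rw [h _ hf0]
  rw [h1 hf hf0, h1 hg hg0]
  exact pb_congr om hfg

/-- the cutoff form pulled back by the cone map -/
theorem Cyc.pb_cn (h : Cyc K Φ) {om : V → Lam V} (hom : Hom om) (z : X × ℝ) :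
    pb (cn Φ) (fun y => Q.dR rst y * om y) z =
      deriv h0 z.2 • (dx (ContinuousLinearMap.snd ℝ X ℝ) * Q.pf (pb Φ om z.1)) := by
  have hd := h.contDiff_cn.differentiable (by simp) z
  have h1 : pb (cn Φ) (fun y => Q.dR rst y * om y) z = pb (cn Φ) (Q.dR rst) z * pb (cn Φ) om z :=
    map_mul _ _ _
  have h2 : pb (cn Φ) (Q.dR rst) z = deriv h0 z.2 • dx (ContinuousLinearMap.snd ℝ X ℝ) := by
    have h3 : pb (cn Φ) (Q.dR rst) z = dx (fderiv ℝ (fun w => rst (cn Φ w)) z) := by
      rw [pb, Q.dR, pull_dx]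
      congr 1
      exact (fderiv_comp z (contDiff_rst.differentiable (by simp) _) hd).symm
    have h4 : (fun w => rst (cn Φ w)) = fun w : X × ℝ => h0 w.2 := by
      funext w
      rw [rst, h.norm_cn, h0]
    have h5 : HasFDerivAt (fun w : X × ℝ => h0 w.2) (deriv h0 z.2 • ContinuousLinearMap.snd ℝ X ℝ) z :=
      (contDiff_h0.differentiable (by simp) z.2).hasDerivAt.comp_hasFDerivAt z hasFDerivAt_snd
    rw [h3, h4, h5.fderiv, map_smul]
  rw [h1, h2, smul_mul_assoc]
  rcases le_or_gt z.2 0 with hz | hz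
  · rw [h0_deriv_zero (by rw [bb_nonpos hz]; norm_num), zero_smul, zero_smul]
  · congr 2
    have h6 : DifferentiableAt ℝ (fun w : X × ℝ => Φ w.1) z :=
      ((h.smooth.comp contDiff_fst).differentiable (by simp)) z
    have h7 : cn Φ z ≠ 0 := by
      rw [← norm_ne_zero_iff, h.norm_cn]
      exact (bb_pos hz).ne'
    rw [hom.pb_smul hd h6 h7 ?_ (h.ne _)]
    · rw [pb_comp om (h.smooth.differentiable (by simp) _) differentiableAt_fst, pb, fderiv_fst]
      rfl
    · have h8 : ∀ᶠ w : X × ℝ in 𝓝 z, 0 < w.2 :=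
        (isOpen_lt continuous_const continuous_snd).mem_nhds hz
      filter_upwards [h8] with w hw
      exact rad_smul _ (bb_pos hw)

theorem Cyc.cont_eval (h : Cyc K Φ) {k : ℕ} (bX : Fin k → X) {om : V → Lam V}
    (hom : ContDiffOn ℝ ∞ om {0}ᶜ) : Continuous fun x => evalForm (pb Φ om x) bX := by
  have h1 : ContDiff ℝ ∞ (pb Φ om) := contDiff_iff_contDiffAt.2 fun x =>
    contDiffAt_pb h.smooth.contDiffAt
      (hom.contDiffAt (isOpen_compl_singleton.mem_nhds (h.ne x))) (by simp)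
  exact (evalL bX).continuous.comp h1.continuous

theorem Cyc.eval_out (h : Cyc K Φ) {k : ℕ} (bX : Basis (Fin k) ℝ X) (om : V → Lam V) {x : X}
    (hx : x ∉ K) : evalForm (pb Φ om x) bX = 0 := by
  have hk : finrank ℝ X = k := (finrank_eq_card_basis bX).trans (Fintype.card_fin k)
  have h1 := h.rank x hx
  rw [← evalForm_prt, pb, prt_pull_eq_zero (by omega)]
  exact map_zero (evalL bX)

/-- the integral over the cone is the integral over the cycle -/
theorem Cyc.JJ_cn (h : Cyc K Φ) {k : ℕ} (bX : Basis (Fin k) ℝ X) {om : V → Lam V}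
    (hom : ContDiffOn ℝ ∞ om {0}ᶜ) (hh : Hom om) :
    JJ (pB bX bR) (pb (cn Φ) fun y => Q.dR rst y * om y) = JJ bX (pb Φ om) := by
  have hsl : ∀ z : X × ℝ, slice bR (pb (cn Φ) (fun y => Q.dR rst y * om y) z) =
      deriv h0 z.2 • pb Φ om z.1 := by
    intro z
    rw [h.pb_cn hh, map_smul, slice_apply, cont_succ]
    change deriv h0 z.2 • pull (ContinuousLinearMap.inl ℝ X ℝ) (iprod (vert bR 0)
      (dx (ContinuousLinearMap.snd ℝ X ℝ) * Q.pf (pb Φ om z.1))) = _
    rw [iprod_dx_mul]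
    have h1 : iprod (vert (E := X) bR 0) (Q.pf (pb Φ om z.1)) = 0 := Q.iprod_vert_pf _ _
    have h2 : (ContinuousLinearMap.snd ℝ X ℝ) (vert bR 0) = 1 := bR_apply 0
    rw [h1, h2, mul_zero, sub_zero, one_smul, Q.pull_inl_pf]
  have hev : ∀ z : X × ℝ, evalForm (pb (cn Φ) (fun y => Q.dR rst y * om y) z) (pB bX bR) =
      deriv h0 z.2 * evalForm (pb Φ om z.1) bX := by
    intro z
    rw [evalForm_pB, hsl]
    exact map_smul (evalL bX) _ _
  obtain ⟨S, hS, hS0⟩ := exists_h0_supp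
  rw [JJ_pB bX bR (K := K ×ˢ Icc 0 S)]
  · unfold JJ
    refine integral_congr_ae (Eventually.of_forall fun x => ?_)
    simp only
    have h1 : ∀ y, evalForm (slice bR (pb (cn Φ) (fun y => Q.dR rst y * om y) (x, y))) bX =
        deriv h0 y * evalForm (pb Φ om x) bX := by
      intro y
      rw [hsl]
      exact map_smul (evalL bX) _ _
    simp only [h1]
    rw [integral_mul_const, addHaar_bR, integral_h0, one_mul]
  · simp only [hev]
    exact ((contDiff_h0.continuous_deriv (by simp)).comp continuous_snd).mul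
      ((h.cont_eval bX hom).comp continuous_fst)
  · exact h.compact.prod isCompact_Icc
  · intro z hz
    rw [hev]
    by_cases hzK : z.1 ∈ K
    · rw [hS0 z.2 fun h3 => hz ⟨hzK, h3⟩, zero_mul]
    · rw [h.eval_out bX om hzK, mul_zero]

/-- **the degree of a cycle of dimension `dim V - 1`** -/
theorem Cyc.degree (h : Cyc K Φ) {k : ℕ} (hk : 0 < k) (bX : Basis (Fin k) ℝ X)
    (bV : Basis (Fin (1 + k)) ℝ V) :
    ∃ n : ℤ, ∀ om : V → Lam V, ContDiffOn ℝ ∞ om {0}ᶜ → Hom om →
      JJ bX (pb Φ om) = n * JJ bV (fun y => Q.dR rst y * om y) := by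
  have hX : finrank ℝ X = k := (finrank_eq_card_basis bX).trans (Fintype.card_fin k)
  obtain ⟨n, hn⟩ := deg_map (by omega) (pB bX bR) bV h.contDiff_cn h.proper
    (fun z hz => by have := h.rank_cn (by omega) z hz; omega)
  refine ⟨n, fun om hom hh => ?_⟩
  rw [← h.JJ_cn bX hom hh]
  exact hn _ (contDiff_cutmul cut_rst hom) (compact_cutmul cut_rst om)

/-- the degree is `±1` if one value is taken once, regularly -/
theorem Cyc.degree_one (h : Cyc K Φ) {k : ℕ} (hk : 0 < k) (bX : Basis (Fin k) ℝ X)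
    (bV : Basis (Fin (1 + k)) ℝ V) {x₀ : X} (hx₀ : Function.Injective (fderiv ℝ Φ x₀))
    (hu : ∀ x ∈ K, Φ x = Φ x₀ → x = x₀) :
    ∃ n : ℤ, |n| = 1 ∧ ∀ om : V → Lam V, ContDiffOn ℝ ∞ om {0}ᶜ → Hom om →
      JJ bX (pb Φ om) = n * JJ bV (fun y => Q.dR rst y * om y) := by
  have hX : finrank ℝ X = k := (finrank_eq_card_basis bX).trans (Fintype.card_fin k)
  have hort : ∀ u, inner ℝ (Φ x₀) (fderiv ℝ Φ x₀ u) = 0 := by
    intro u
    have h1 : HasFDerivAt Φ (fderiv ℝ Φ x₀) x₀ :=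
      (h.smooth.differentiable (by simp) x₀).hasFDerivAt
    have h2 := h1.norm_sq
    have h3 : (fun x => ‖Φ x‖ ^ 2) = fun _ => 1 := by
      funext x
      rw [h.norm, one_pow]
    rw [h3] at h2
    have h4 := congrArg (fun L : X →L[ℝ] ℝ => L u) (h2.unique (hasFDerivAt_const 1 x₀))
    simpa using h4
  obtain ⟨n, hn1, hn⟩ := deg_map_one (by omega) (pB bX bR) bV h.contDiff_cn h.proper
    (fun z hz => by have := h.rank_cn (by omega) z hz; omega) (x₀ := (x₀, (1 : ℝ)))
    (by
      rw [injective_iff_map_eq_zero]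
      rintro ⟨u, s⟩ hus
      rw [h.fderiv_cn] at hus
      simp only [add_apply, smul_apply,
        ContinuousLinearMap.comp_apply, ContinuousLinearMap.coe_fst', ContinuousLinearMap.coe_snd',
        ContinuousLinearMap.smulRight_apply, hasDerivAt_bb_one.deriv, smul_eq_mul] at hus
      have h1 := congrArg (fun v => inner ℝ (Φ x₀) v) hus
      simp only [inner_add_right, inner_smul_right, hort, mul_zero, zero_add, inner_zero_right,
        real_inner_self_eq_norm_sq, h.norm, one_pow, mul_one] at h1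
      have hs : s = 0 := by
        rcases mul_eq_zero.1 h1 with h2 | h2
        · exact absurd h2 (by positivity)
        · exact h2
      rw [hs, mul_zero, zero_smul, add_zero] at hus
      have h3 := (smul_eq_zero.1 hus).resolve_left (bb_pos one_pos).ne'
      have h4 : u = 0 := hx₀ (by rw [h3, map_zero])
      rw [h4, hs]
      rfl)
    (by
      rintro ⟨x, s⟩ ⟨hxK, hs⟩ hxs
      have h1 : bb s = bb 1 := by
        have := congrArg (fun v : V => ‖v‖) hxs
        simpa only [h.norm_cn] using this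
      have h2 : s = 1 := bb_inj hs zero_le_one h1
      subst h2
      have h3 : Φ x = Φ x₀ := smul_right_injective V (bb_pos one_pos).ne' hxs
      rw [hu x hxK h3])
  refine ⟨n, hn1, fun om hom hh => ?_⟩
  rw [← h.JJ_cn bX hom hh]
  exact hn _ (contDiff_cutmul cut_rst hom) (compact_cutmul cut_rst om)

end Vale.Agent.P231.TW
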