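import Vale.Agent.P231.TW.Cone

/-!
# P231, block TW: the standard map from the ball to the sphere

`th e0 : (ℝ ∙ e0)ᗮ → W` is smooth of norm one, equal to `e0` outside the unit ball and takes the
value `-e0` only at `0`, where its derivative is injective.
-/

set_option linter.unusedSectionVars false
set_option linter.unusedVariables false

open Module MeasureTheory Set Metric Filter
open scoped ContDiff Topology

namespace Vale.Agent.P231.TW

open Fm WA

/-- the profile of the equatorial part -/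
noncomputable def gg (s : ℝ) : ℝ := expNegInvGlue (1 - s)

/-- the profile of the axial part -/
noncomputable def hh (s : ℝ) : ℝ := 1 - 2 * (gg s / gg 0)

theorem contDiff_gg : ContDiff ℝ ∞ gg :=
  (expNegInvGlue.contDiff (n := ⊤)).comp (contDiff_const.sub contDiff_id)

theorem contDiff_hh : ContDiff ℝ ∞ hh :=
  contDiff_const.sub (contDiff_const.mul (contDiff_gg.div_const _))

theorem gg_pos {s : ℝ} (hs : s < 1) : 0 < gg s := expNegInvGlue.pos_of_pos (by linarith)

theorem gg_zero {s : ℝ} (hs : 1 ≤ s) : gg s = 0 := expNegInvGlue.zero_of_nonpos (by linarith)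

theorem hh_one {s : ℝ} (hs : 1 ≤ s) : hh s = 1 := by
  rw [hh, gg_zero hs, zero_div, mul_zero, sub_zero]

theorem hh_zero : hh 0 = -1 := by
  rw [hh, div_self (gg_pos one_pos).ne']
  norm_num

variable {W : Type*} [NormedAddCommGroup W] [InnerProductSpace ℝ W] [FiniteDimensional ℝ W]
  [MeasurableSpace W] [BorelSpace W]

/-- the unnormalised map -/
noncomputable def vv (e0 : W) (y : (Submodule.span ℝ {e0})ᗮ) : W :=
  gg (‖y‖ ^ 2) • (y : W) + hh (‖y‖ ^ 2) • e0

/-- the standard map -/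
noncomputable def th (e0 : W) (y : (Submodule.span ℝ {e0})ᗮ) : W := rad (vv e0 y)

variable {e0 : W}

theorem contDiff_vv : ContDiff ℝ ∞ (vv e0) := by
  have h1 : ContDiff ℝ ∞ fun y : (Submodule.span ℝ {e0})ᗮ => ‖y‖ ^ 2 := contDiff_norm_sq ℝ
  exact ((contDiff_gg.comp h1).smul ((Submodule.subtypeL _).contDiff)).add
    ((contDiff_hh.comp h1).smul contDiff_const)

theorem inner_e0 (y : (Submodule.span ℝ {e0})ᗮ) : inner ℝ e0 (y : W) = 0 :=
  Submodule.mem_orthogonal_singleton_iff_inner_right.1 y.2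

theorem inner_vv (y : (Submodule.span ℝ {e0})ᗮ) :
    inner ℝ (y : W) (vv e0 y) = gg (‖y‖ ^ 2) * ‖y‖ ^ 2 := by
  rw [vv, inner_add_right, real_inner_smul_right, real_inner_smul_right, real_inner_comm e0,
    inner_e0, mul_zero, add_zero, real_inner_self_eq_norm_sq]
  rfl

theorem vv_out {y : (Submodule.span ℝ {e0})ᗮ} (hy : 1 ≤ ‖y‖) : vv e0 y = e0 := by
  have h1 : 1 ≤ ‖y‖ ^ 2 := one_le_pow₀ hy
  rw [vv, gg_zero h1, hh_one h1, zero_smul, one_smul, zero_add]

theorem vv_zero : vv e0 (0 : (Submodule.span ℝ {e0})ᗮ) = -e0 := by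
  rw [vv, norm_zero, zero_pow two_ne_zero, hh_zero, Submodule.coe_zero, smul_zero, zero_add,
    neg_one_smul]

theorem vv_ne (he : ‖e0‖ = 1) (y : (Submodule.span ℝ {e0})ᗮ) : vv e0 y ≠ 0 := by
  have he0 : e0 ≠ 0 := by
    intro h
    rw [h, norm_zero] at he
    exact zero_ne_one he
  intro h0
  rcases le_or_gt 1 ‖y‖ with hy | hy
  · exact he0 (by rw [← vv_out hy, h0])
  · have h1 := inner_vv y
    rw [h0, inner_zero_right] at h1
    have h2 : 0 < gg (‖y‖ ^ 2) := gg_pos (by nlinarith [norm_nonneg y])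
    have h3 : ‖y‖ ^ 2 = 0 := (mul_eq_zero.1 h1.symm).resolve_left h2.ne'
    have h4 : y = 0 := norm_eq_zero.1 (pow_eq_zero_iff two_ne_zero |>.1 h3)
    subst h4
    rw [vv_zero, neg_eq_zero] at h0
    exact he0 h0

theorem contDiff_th (he : ‖e0‖ = 1) : ContDiff ℝ ∞ (th e0) :=
  contDiff_iff_contDiffAt.2 fun y => (contDiffAt_rad (vv_ne he y)).comp y contDiff_vv.contDiffAt

theorem norm_th (he : ‖e0‖ = 1) (y : (Submodule.span ℝ {e0})ᗮ) : ‖th e0 y‖ = 1 :=
  norm_rad (vv_ne he y)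

theorem th_out (he : ‖e0‖ = 1) {y : (Submodule.span ℝ {e0})ᗮ} (hy : 1 ≤ ‖y‖) : th e0 y = e0 := by
  rw [th, vv_out hy, rad, he, inv_one, one_smul]

theorem th_zero (he : ‖e0‖ = 1) : th e0 0 = -e0 := by
  rw [th, vv_zero, rad, norm_neg, he, inv_one, one_smul]

theorem th_const (he : ‖e0‖ = 1) {y : (Submodule.span ℝ {e0})ᗮ} (hy : y ∉ closedBall 0 1) :
    th e0 =ᶠ[𝓝 y] fun _ => e0 := by
  rw [mem_closedBall_zero_iff, not_le] at hy
  filter_upwards [(isOpen_lt continuous_const continuous_norm).mem_nhds hy] with z hz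
  exact th_out he (le_of_lt hz)

theorem finrank_Y (he : ‖e0‖ = 1) :
    finrank ℝ (Submodule.span ℝ {e0})ᗮ + 1 = finrank ℝ W := by
  have he0 : e0 ≠ 0 := by
    intro h
    rw [h, norm_zero] at he
    exact zero_ne_one he
  have h1 := Submodule.finrank_add_finrank_orthogonal (Submodule.span ℝ {e0})
  rw [finrank_span_singleton he0] at h1
  omega

theorem cyc_th (he : ‖e0‖ = 1) (hW : 3 ≤ finrank ℝ W) : Cyc (closedBall 0 1) (th e0) where
  smooth := contDiff_th he
  norm := norm_th he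
  compact := isCompact_closedBall _ _
  rank y hy := by
    rw [(th_const he hy).fderiv_eq, fderiv_const_apply, rk_zero]
    have := finrank_Y he
    omega

theorem th_unique (he : ‖e0‖ = 1) {y : (Submodule.span ℝ {e0})ᗮ} (hy : th e0 y = th e0 0) :
    y = 0 := by
  have he0 : e0 ≠ 0 := by
    intro h
    rw [h, norm_zero] at he
    exact zero_ne_one he
  rw [th_zero he] at hy
  rcases le_or_gt 1 ‖y‖ with h | h
  · rw [th_out he h] at hy
    have h2 := congrArg (fun v => inner ℝ e0 v) hy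
    simp only [inner_neg_right, real_inner_self_eq_norm_sq, he] at h2
    norm_num at h2
  · have h1 : inner ℝ (y : W) (th e0 y) = 0 := by
      rw [hy, inner_neg_right, real_inner_comm, inner_e0, neg_zero]
    rw [th, rad, real_inner_smul_right, inner_vv] at h1
    have h2 : ‖vv e0 y‖⁻¹ ≠ 0 := inv_ne_zero (norm_ne_zero_iff.2 (vv_ne he y))
    have h3 : 0 < gg (‖y‖ ^ 2) := gg_pos (by nlinarith [norm_nonneg y])
    have h4 : ‖y‖ ^ 2 = 0 :=
      (mul_eq_zero.1 ((mul_eq_zero.1 h1).resolve_left h2)).resolve_left h3.ne'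
    exact norm_eq_zero.1 (pow_eq_zero_iff two_ne_zero |>.1 h4)

theorem th_inj (he : ‖e0‖ = 1) : Function.Injective (fderiv ℝ (th e0) 0) := by
  rw [injective_iff_map_eq_zero]
  intro u hu
  have hl : HasDerivAt (fun t : ℝ => t • u) ((1 : ℝ) • u) 0 := (hasDerivAt_id (0 : ℝ)).smul_const u
  have hN : DifferentiableAt ℝ (fun t : ℝ => ‖vv e0 (t • u)‖) 0 := by
    have h1 : DifferentiableAt ℝ (fun t : ℝ => vv e0 (t • u)) 0 :=
      (contDiff_vv.differentiable (by simp) _).comp (0 : ℝ) hl.differentiableAt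
    exact h1.norm ℝ (vv_ne he _)
  have hG : DifferentiableAt ℝ (fun t : ℝ => gg (‖t • u‖ ^ 2)) 0 := by
    have h1 : ContDiff ℝ ∞ fun y : (Submodule.span ℝ {e0})ᗮ => ‖y‖ ^ 2 := contDiff_norm_sq ℝ
    exact ((contDiff_gg.comp h1).differentiable (by simp) _).comp (0 : ℝ) hl.differentiableAt
  have hT : HasDerivAt (fun t : ℝ => th e0 (t • u)) 0 0 := by
    have h1 : HasFDerivAt (th e0) (fderiv ℝ (th e0) 0) ((0 : ℝ) • u) := by
      rw [zero_smul]
      exact ((contDiff_th he).differentiable (by simp) _).hasFDerivAt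
    have h2 := h1.comp_hasDerivAt (0 : ℝ) hl
    rw [one_smul, hu] at h2
    exact h2
  have hS : HasDerivAt (fun t : ℝ => inner ℝ (u : W) (th e0 (t • u))) 0 0 := by
    have h1 := (hasDerivAt_const (0 : ℝ) (u : W)).inner ℝ hT
    rw [inner_zero_right, inner_zero_left, add_zero] at h1
    exact h1
  have h1 := hN.hasDerivAt.mul hS
  have h2 := hG.hasDerivAt.mul ((hasDerivAt_id (0 : ℝ)).mul_const (‖u‖ ^ 2))
  have h3 : (fun t : ℝ => ‖vv e0 (t • u)‖ * inner ℝ (u : W) (th e0 (t • u))) =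
      fun t : ℝ => gg (‖t • u‖ ^ 2) * (t * ‖u‖ ^ 2) := by
    funext t
    rw [th, rad, real_inner_smul_right, ← mul_assoc,
      mul_inv_cancel₀ (norm_ne_zero_iff.2 (vv_ne he _)), one_mul, vv, inner_add_right,
      real_inner_smul_right, real_inner_smul_right, real_inner_comm e0, inner_e0, mul_zero,
      add_zero, Submodule.coe_smul, real_inner_smul_right, real_inner_self_eq_norm_sq]
    rfl
  have h4 := (show HasDerivAt (fun t : ℝ => ‖vv e0 (t • u)‖ * inner ℝ (u : W) (th e0 (t • u))) _ 0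
    from h1)
  rw [h3] at h4
  have h5 := h4.unique h2
  have h6 : inner ℝ (u : W) (th e0 ((0 : ℝ) • u)) = 0 := by
    rw [zero_smul, th_zero he, inner_neg_right, real_inner_comm, inner_e0, neg_zero]
  rw [h6, mul_zero, mul_zero, add_zero] at h5
  simp only [zero_mul, mul_zero, zero_add, one_mul, zero_smul, norm_zero, id_eq,
    zero_pow two_ne_zero] at h5
  have h7 : ‖u‖ ^ 2 = 0 := (mul_eq_zero.1 h5.symm).resolve_left (gg_pos one_pos).ne'
  exact norm_eq_zero.1 (pow_eq_zero_iff two_ne_zero |>.1 h7)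

/-- **the standard map has degree one** -/
theorem th_degree (he : ‖e0‖ = 1) (hW : 3 ≤ finrank ℝ W) {k : ℕ} (hk : 0 < k)
    (bY : Basis (Fin k) ℝ (Submodule.span ℝ {e0})ᗮ) (bW : Basis (Fin (1 + k)) ℝ W) :
    ∃ n : ℤ, |n| = 1 ∧ ∀ om : W → Lam W, ContDiffOn ℝ ∞ om {0}ᶜ → Hom om →
      JJ bY (pb (th e0) om) = n * JJ bW (fun y => Q.dR rst y * om y) :=
  (cyc_th he hW).degree_one hk bY bW (th_inj he) fun y _ hy => th_unique he hy

end Vale.Agent.P231.TW
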