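import Vale.Agent.P231.TW.Hlp

/-!
# P231, block TW: the base integral of the step
-/

set_option linter.unusedSectionVars false
set_option linter.unusedVariables false

open Module MeasureTheory Set Metric Filter
open scoped ContDiff Topology

namespace Vale.Agent.P231.TW

open Fm WA FE

/-! ### the cutoff in time -/

/-- the cutoff in time -/
noncomputable def ct (t : ℝ) : ℝ := Real.smoothTransition (t + 2)

theorem contDiff_ct : ContDiff ℝ ∞ ct :=
  (Real.smoothTransition.contDiff (n := ⊤)).comp (contDiff_id.add contDiff_const)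

theorem ct_zero {t : ℝ} (ht : t ≤ -2) : ct t = 0 :=
  Real.smoothTransition.zero_of_nonpos (by linarith)

theorem ct_one {t : ℝ} (ht : -1 ≤ t) : ct t = 1 :=
  Real.smoothTransition.one_of_one_le (by linarith)

theorem deriv_ct {t : ℝ} (ht : t ∉ Icc (-2 : ℝ) (-1)) : deriv ct t = 0 := by
  rw [mem_Icc, not_and_or, not_le, not_le] at ht
  rcases ht with h | h
  · have h1 : ct =ᶠ[𝓝 t] fun _ => 0 := by
      filter_upwards [Iio_mem_nhds h] with s hs using ct_zero (le_of_lt hs)
    rw [h1.deriv_eq, deriv_const]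
  · have h1 : ct =ᶠ[𝓝 t] fun _ => 1 := by
      filter_upwards [Ioi_mem_nhds h] with s hs using ct_one (le_of_lt hs)
    rw [h1.deriv_eq, deriv_const]

theorem integral_ct : ∫ t, deriv ct t = 1 := by
  have hc : Continuous (deriv ct) := contDiff_ct.continuous_deriv (by simp)
  have hi : Integrable (deriv ct) := hc.integrable_of_hasCompactSupport
    (HasCompactSupport.intro isCompact_Icc fun t ht => deriv_ct ht)
  have h1 : Tendsto ct atBot (𝓝 0) := by
    refine tendsto_const_nhds.congr' ?_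
    filter_upwards [Iic_mem_atBot (-2 : ℝ)] with s hs using (ct_zero hs).symm
  have h2 : Tendsto ct atTop (𝓝 1) := by
    refine tendsto_const_nhds.congr' ?_
    filter_upwards [Ici_mem_atTop (-1 : ℝ)] with s hs using (ct_one hs).symm
  rw [integral_of_hasDerivAt_of_tendsto (fun s =>
    (contDiff_ct.differentiable (by simp) s).hasDerivAt) hi h1 h2, sub_zero]

/-! ### the segment map -/

variable {V : Type*} [NormedAddCommGroup V] [InnerProductSpace ℝ V] [FiniteDimensional ℝ V]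
  [MeasurableSpace V] [BorelSpace V]
variable {X : Type*} [NormedAddCommGroup X] [NormedSpace ℝ X] [FiniteDimensional ℝ X]
  [MeasurableSpace X] [BorelSpace X]
variable {m : ℕ} {Pi : V → V →L[ℝ] V} {psi : V → Lam V} {κ : ℝ}

/-- the segments from the cycle to the point `-a` -/
noncomputable def pth (a : V) (Φ : X → V) (z : X × ℝ) : V :=
  sg a (Φ z.1, Real.smoothTransition z.2)

variable {a : V} {Φ : X → V} {K : Set X}

theorem contDiff_pth (hΦ : ContDiff ℝ ∞ Φ) : ContDiff ℝ ∞ (pth a Φ) :=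
  (contDiff_sg a).comp ((hΦ.comp contDiff_fst).prodMk
    ((Real.smoothTransition.contDiff (n := ⊤)).comp contDiff_snd))

theorem pth_neg {z : X × ℝ} (hz : z.2 < 0) : pth a Φ =ᶠ[𝓝 z] fun w => Φ w.1 := by
  filter_upwards [(isOpen_lt continuous_snd continuous_const).mem_nhds hz] with w hw
  rw [pth, Real.smoothTransition.zero_of_nonpos (le_of_lt hw), sg_zero]

theorem pth_gt {z : X × ℝ} (hz : 1 < z.2) : pth a Φ =ᶠ[𝓝 z] fun _ => -a := by
  filter_upwards [(isOpen_lt continuous_const continuous_snd).mem_nhds hz] with w hw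
  rw [pth, Real.smoothTransition.one_of_one_le (le_of_lt hw), sg_one]

theorem rk_pth (hΦ : ContDiff ℝ ∞ Φ) (z : X × ℝ) :
    rk (fderiv ℝ (pth a Φ) z) ≤ rk (fderiv ℝ Φ z.1) + 1 := by
  let τ : ℝ → ℝ := Real.smoothTransition
  have hτ : HasDerivAt τ (deriv τ z.2) z.2 :=
    ((Real.smoothTransition.contDiff (n := (⊤ : ℕ∞))).differentiable (by simp) z.2).hasDerivAt
  have h1 : HasFDerivAt (fun z : X × ℝ => τ z.2) (deriv τ z.2 • ContinuousLinearMap.snd ℝ X ℝ) z :=
    hτ.comp_hasFDerivAt z hasFDerivAt_snd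
  have h2 : HasFDerivAt (fun z : X × ℝ => Φ z.1)
      (fderiv ℝ Φ z.1 ∘L ContinuousLinearMap.fst ℝ X ℝ) z :=
    HasFDerivAt.comp (g := Φ) (f := fun z : X × ℝ => z.1) z
      ((hΦ.differentiable (by simp) z.1).hasFDerivAt) hasFDerivAt_fst
  have h3 := ((h1.const_sub 1).smul h2).sub (h1.smul_const a)
  have h4 : fderiv ℝ (pth a Φ) z = _ := HasFDerivAt.fderiv (f := pth a Φ) h3
  have h5 : fderiv ℝ (pth a Φ) z = (1 - τ z.2) • (fderiv ℝ Φ z.1 ∘L ContinuousLinearMap.fst ℝ X ℝ) +
      (-(deriv τ z.2 • ContinuousLinearMap.snd ℝ X ℝ)).smulRight (Φ z.1 + a) := by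
    rw [h4]
    ext u
    · simp
    · simp
      module
  rw [h5]
  have h6 := rk_add ((1 - τ z.2) • (fderiv ℝ Φ z.1 ∘L ContinuousLinearMap.fst ℝ X ℝ))
    ((-(deriv τ z.2 • ContinuousLinearMap.snd ℝ X ℝ)).smulRight (Φ z.1 + a))
  have h7 := rk_smulRight (-(deriv τ z.2 • ContinuousLinearMap.snd ℝ X ℝ)) (Φ z.1 + a)
  have h8 := rk_smul (1 - τ z.2) (fderiv ℝ Φ z.1 ∘L ContinuousLinearMap.fst ℝ X ℝ)
  have h9 := rk_comp_right (ContinuousLinearMap.fst ℝ X ℝ) (fderiv ℝ Φ z.1)
  omega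

/-! ### the forms `ψ (dψ)^j` -/

theorem Ang.smooth_om (A : Ang m Pi psi κ) (j : ℕ) : ContDiffOn ℝ ∞ (Q.om psi j) {0}ᶜ :=
  fun y hy => ((A.at hy).mul ((A.at_extd hy).pow j)).contDiffWithinAt

theorem Ang.extd_om (A : Ang m Pi psi κ) (j : ℕ) {y : V} (hy : y ≠ 0) :
    extd (Q.om psi j) y = extd psi y ^ (j + 1) := by
  have hd : DifferentiableAt ℝ (extd psi) y := (A.at_extd hy).differentiableAt (by simp)
  have h1 : extd (Q.om psi j) y = _ := extd_mul (A.diff hy) (hd.fun_pow j)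
  rw [h1, Q.extd_pow_closed hd (A.bs.closed y hy), mul_zero, add_zero, ← pow_succ']

theorem Ang.prt_F (A : Ang m Pi psi κ) (hm : 1 ≤ m) {y : V} (hy : y ≠ 0) :
    prt m (extd psi y) = extd psi y := by
  have h1 := prt_extd_of_eq (k := m - 1) (A.diff hy) (by
    filter_upwards [isOpen_compl_singleton.mem_nhds hy] with z hz using A.deg z hz)
  rwa [Nat.sub_add_cancel hm] at h1

theorem Ang.prt_om (A : Ang m Pi psi κ) (hm : 1 ≤ m) (j : ℕ) {y : V} (hy : y ≠ 0) :
    prt (m - 1 + m * j) (Q.om psi j y) = Q.om psi j y :=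
  prt_mul_of_eq (A.deg y hy) (prt_pow_of_eq (A.prt_F hm hy) j)

/-- the power of the derivative -/
noncomputable def Fp (psi : V → Lam V) (j : ℕ) (y : V) : Lam V := extd psi y ^ (j + 1)

theorem Ang.smooth_Fp (A : Ang m Pi psi κ) (j : ℕ) : ContDiffOn ℝ ∞ (Fp psi j) {0}ᶜ :=
  fun y hy => ((A.at_extd hy).pow (j + 1)).contDiffWithinAt

theorem Ang.prt_Fp (A : Ang m Pi psi κ) (hm : 1 ≤ m) (j : ℕ) {y : V} (hy : y ≠ 0) :
    prt (m * (j + 1)) (Fp psi j y) = Fp psi j y := prt_pow_of_eq (A.prt_F hm hy) _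

section Base

variable {k j : ℕ} (bX : Basis (Fin k) ℝ X)

theorem prt_pb_eq_zero {c : X → V} {x : X} {k : ℕ} (h : rk (fderiv ℝ c x) < k) (w : V → Lam V) :
    prt k (pb c w x) = 0 := prt_pull_eq_zero h _

theorem Fp_out (A : Ang m Pi psi κ) (hm : 1 ≤ m) (hΦ : Cyc K Φ) (hkX : finrank ℝ X = k)
    (hk : k + 1 = m * (j + 1)) (hne : ∀ z : X × ℝ, pth a Φ z ≠ 0) {z : X × ℝ}
    (hz : z ∉ K ×ˢ Icc (0 : ℝ) 1) : pb (pth a Φ) (Fp psi j) z = 0 := by
  have h1 : prt (k + 1) (pb (pth a Φ) (Fp psi j) z) = pb (pth a Φ) (Fp psi j) z := by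
    rw [pb, prt_pull, hk, A.prt_Fp hm j (hne z)]
  rw [← h1]
  refine prt_pb_eq_zero ?_ _
  by_cases hK : z.1 ∈ K
  · have h2 : z.2 < 0 ∨ 1 < z.2 := by
      by_contra h3
      rw [not_or, not_lt, not_lt] at h3
      exact hz ⟨hK, h3⟩
    rcases h2 with h2 | h2
    · rw [(pth_neg h2).fderiv_eq]
      have h3 := rk_comp_fst (c := Φ) (w := z) (hΦ.smooth.differentiable (by simp) _)
      have h4 := rk_le (fderiv ℝ Φ z.1)
      omega
    · rw [(pth_gt h2).fderiv_eq, fderiv_const_apply, rk_zero]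
      omega
  · have h2 := hΦ.rank z.1 hK
    have h3 := rk_pth (a := a) hΦ.smooth z
    omega

theorem cont_pb_Fp (A : Ang m Pi psi κ) (hΦ : Cyc K Φ) (hne : ∀ z : X × ℝ, pth a Φ z ≠ 0) :
    ContDiff ℝ ∞ (pb (pth a Φ) (Fp psi j)) := contDiff_iff_contDiffAt.2 fun z =>
  contDiffAt_pb (m := ∞) (n := ∞) (contDiff_pth hΦ.smooth).contDiffAt
    ((A.smooth_Fp j).contDiffAt (isOpen_compl_singleton.mem_nhds (hne z))) (by simp)

/-- **the base integral** -/
theorem base_int (A : Ang m Pi psi κ) (hm : 2 ≤ m) (hΦ : Cyc K Φ) 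
    (hk : k + 1 = m * (j + 1)) (hne : ∀ z : X × ℝ, pth a Φ z ≠ 0) :
    JJ (pB bX bR) (pb (pth a Φ) (Fp psi j)) = -JJ bX (pb Φ (Q.om psi j)) := by
  have hkX : finrank ℝ X = k := (finrank_eq_card_basis bX).trans (Fintype.card_fin k)
  have hk0 : 0 < k := by
    have : m ≤ m * (j + 1) := Nat.le_mul_of_pos_right m (Nat.succ_pos j)
    omega
  have hkm : k = m - 1 + m * j := by
    have : m * (j + 1) = m * j + m := by ring
    omega
  have hc := contDiff_pth (a := a) hΦ.smooth
  have hcat : ∀ z, ContDiffAt ℝ ∞ (pb (pth a Φ) (Q.om psi j)) z := fun z =>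
    contDiffAt_pb (m := ∞) (n := ∞) hc.contDiffAt
      ((A.smooth_om j).contDiffAt (isOpen_compl_singleton.mem_nhds (hne z))) (by simp)
  let al : X × ℝ → Lam (X × ℝ) := fun z => ct z.2 • pb (pth a Φ) (Q.om psi j) z
  have hal : ContDiff ℝ 1 al := by
    have h0 : ContDiff ℝ ∞ al := by
      refine contDiff_iff_contDiffAt.2 fun z => ?_
      have h1 : ContDiffAt ℝ ∞ (fun z : X × ℝ => ct z.2) z :=
        (contDiff_ct.comp contDiff_snd).contDiffAt
      exact smul_lam h1 (hcat z)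
    exact h0.of_le (by simp)
  have hst := JJ_extd' (k := k) (by omega) (pB bX bR) hal
    (hΦ.compact.prod (isCompact_Icc (a := (-2 : ℝ)) (b := 1))) (fun z hz => by
      simp only [al, map_smul]
      by_cases hK : z.1 ∈ K
      · have h2 : z.2 < -2 ∨ 1 < z.2 := by
          by_contra h3
          rw [not_or, not_lt, not_lt] at h3
          exact hz ⟨hK, h3⟩
        rcases h2 with h2 | h2
        · rw [ct_zero h2.le, zero_smul]
        · rw [prt_pb_eq_zero, smul_zero]
          rw [(pth_gt h2).fderiv_eq, fderiv_const_apply, rk_zero]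
          exact hk0
      · rw [prt_pb_eq_zero, smul_zero]
        have h2 := hΦ.rank z.1 hK
        have h3 := rk_pth (a := a) hΦ.smooth z
        omega)
  let nu : X → Lam X := pb Φ (Q.om psi j)
  have hray := JJ_ray bX (h := deriv ct) (contDiff_ct.continuous_deriv (by simp))
    (a := -2) (b := -1) (fun t ht => deriv_ct ht) (ν := nu)
    (hΦ.cont_eval bX (A.smooth_om j)) hΦ.compact (fun x hx => hΦ.eval_out bX (Q.om psi j) hx)
  have hpt : ∀ z, evalForm (extd al z) (pB bX bR) =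
      evalForm (deriv ct z.2 • (dx (ContinuousLinearMap.snd ℝ X ℝ) * Q.pf (nu z.1)) :
        Lam (X × ℝ)) (pB bX bR) + evalForm (pb (pth a Φ) (Fp psi j) z) (pB bX bR) := by
    intro z
    have hfd : HasFDerivAt (fun z : X × ℝ => ct z.2)
        (deriv ct z.2 • ContinuousLinearMap.snd ℝ X ℝ) z :=
      (contDiff_ct.differentiable (by simp) z.2).hasDerivAt.comp_hasFDerivAt z hasFDerivAt_snd
    have h1 : extd al z = dx (fderiv ℝ (fun z : X × ℝ => ct z.2) z) *
        pb (pth a Φ) (Q.om psi j) z + ct z.2 • extd (pb (pth a Φ) (Q.om psi j)) z :=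
      extd_smul hfd.differentiableAt ((hcat z).differentiableAt (by simp))
    have h2 : extd (pb (pth a Φ) (Q.om psi j)) z = pb (pth a Φ) (Fp psi j) z := by
      rw [extd_pb (hc.contDiffAt.of_le two_le_inf) (((A.smooth_om j).contDiffAt
        (isOpen_compl_singleton.mem_nhds (hne z))).differentiableAt (by simp)), pb, pb,
        A.extd_om j (hne z)]
      rfl
    have h3 : ct z.2 • pb (pth a Φ) (Fp psi j) z = pb (pth a Φ) (Fp psi j) z := by
      rcases lt_or_ge z.2 0 with hz | hz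
      · rw [Fp_out A (by omega) hΦ hkX hk hne (fun h => absurd h.2.1 (not_le.2 hz)), smul_zero]
      · rw [ct_one (by linarith), one_smul]
    have h4 : dx (fderiv ℝ (fun z : X × ℝ => ct z.2) z) * pb (pth a Φ) (Q.om psi j) z =
        deriv ct z.2 • (dx (ContinuousLinearMap.snd ℝ X ℝ) * Q.pf (nu z.1)) := by
      rw [hfd.fderiv, map_smul, smul_mul_assoc]
      by_cases hz : z.2 ∈ Icc (-2 : ℝ) (-1)
      · have hz0 : z.2 < 0 := by linarith [hz.2]
        congr 2
        rw [pb_congr _ (pth_neg hz0), pb_comp (f := fun w : X × ℝ => w.1) (Q.om psi j)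
          (hΦ.smooth.differentiable (by simp) _) differentiableAt_fst, pb, fderiv_fst]
        rfl
      · rw [deriv_ct hz, zero_smul, zero_smul]
    rw [h1, h2, h3, h4, Q.evalForm_add]
  have hFi : Integrable (fun z => evalForm (pb (pth a Φ) (Fp psi j) z) (pB bX bR))
      (pB bX bR).addHaar := by
    refine Continuous.integrable_of_hasCompactSupport
      ((evalL (pB bX bR)).continuous.comp (cont_pb_Fp A hΦ hne).continuous) ?_
    refine HasCompactSupport.intro (hΦ.compact.prod (isCompact_Icc (a := (0 : ℝ)) (b := 1)))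
      fun z hz => ?_
    change evalL (pB bX bR) (pb (pth a Φ) (Fp psi j) z) = 0
    rw [Fp_out A (by omega) hΦ hkX hk hne hz, map_zero]
  unfold JJ at hst
  simp only [hpt] at hst
  rw [integral_add hray.1 hFi] at hst
  have h5 := hray.2
  rw [integral_ct, one_mul] at h5
  have h6 : JJ bX nu + JJ (pB bX bR) (pb (pth a Φ) (Fp psi j)) = 0 := by
    rw [← h5]
    exact hst
  linarith

end Base

end Vale.Agent.P231.TW
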