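import Vale.Agent.P231.TW.Basic

/-!
# P231, block TW: transport of a leaf along segments, by chains of projections
-/

set_option linter.unusedSectionVars false
set_option linter.unusedVariables false

open Module MeasureTheory Set Metric Filter
open scoped ContDiff Topology

namespace Vale.Agent.P231.TW

open Fm WA FE

variable {V : Type*} [NormedAddCommGroup V] [InnerProductSpace ℝ V] [FiniteDimensional ℝ V]
variable {W : Type*} [NormedAddCommGroup W] [NormedSpace ℝ W] [FiniteDimensional ℝ W]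
variable {m : ℕ} {Pi : V → V →L[ℝ] V}

/-- the segment from `q.1` to `-a` -/
def sg (a : V) (q : V × ℝ) : V := (1 - q.2) • q.1 - q.2 • a

theorem contDiff_sg (a : V) : ContDiff ℝ ∞ (sg a) :=
  ((contDiff_const.sub contDiff_snd).smul contDiff_fst).sub (contDiff_snd.smul contDiff_const)

theorem sg_one (a p : V) : sg a (p, 1) = -a := by
  simp [sg]

theorem sg_zero (a p : V) : sg a (p, 0) = p := by
  simp [sg]

theorem sg_ne {a p : V} (ha : ‖a‖ = 1) (hp : ‖p‖ = 1) (hpa : p ≠ a) {s : ℝ} (hs0 : 0 ≤ s)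
    (hs1 : s ≤ 1) : sg a (p, s) ≠ 0 := by
  intro h
  have h1 : (1 - s) • p = s • a := sub_eq_zero.1 h
  have h2 := congrArg norm h1
  rw [norm_smul, norm_smul, ha, hp, mul_one, mul_one, Real.norm_eq_abs, Real.norm_eq_abs,
    abs_of_nonneg (by linarith), abs_of_nonneg hs0] at h2
  rw [h2] at h1
  refine hpa (smul_right_injective V (r := s) ?_ h1)
  intro h3
  rw [h3] at h2
  norm_num at h2

/-- the nodes -/
noncomputable def nd (N : ℕ) (s : ℝ) (i : ℕ) : ℝ := 1 - (1 - s) * ((i : ℝ) / N)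

theorem nd_zero (N : ℕ) (s : ℝ) : nd N s 0 = 1 := by simp [nd]

theorem nd_last {N : ℕ} (hN : 0 < N) (s : ℝ) : nd N s N = s := by
  have : (N : ℝ) ≠ 0 := Nat.cast_ne_zero.2 hN.ne'
  rw [nd, div_self this]
  ring

theorem nd_mem {N i : ℕ} (hN : 0 < N) (hi : i ≤ N) {s : ℝ} (hs : s ∈ Icc (0 : ℝ) 1) :
    nd N s i ∈ Icc (0 : ℝ) 1 := by
  have h0 : (0 : ℝ) < N := Nat.cast_pos.2 hN
  have h1 : (0 : ℝ) ≤ (i : ℝ) / N := by positivity
  have h2 : (i : ℝ) / N ≤ 1 := (div_le_one h0).2 (Nat.cast_le.2 hi)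
  unfold nd
  constructor
  · nlinarith [hs.1, hs.2]
  · nlinarith [hs.1, hs.2]

theorem nd_dist {N i : ℕ} (hN : 0 < N) {s : ℝ} (hs : s ∈ Icc (0 : ℝ) 1) :
    dist (nd N s i) (nd N s (i + 1)) ≤ 1 / N := by
  have h0 : (0 : ℝ) < N := Nat.cast_pos.2 hN
  have h1 : nd N s i - nd N s (i + 1) = (1 - s) * (1 / N) := by
    unfold nd
    push_cast
    ring
  rw [Real.dist_eq, h1, abs_of_nonneg (mul_nonneg (by linarith [hs.2]) (by positivity))]
  exact mul_le_of_le_one_left (by positivity) (by linarith [hs.1])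

/-- the chain of projections -/
noncomputable def ch (Pi : V → V →L[ℝ] V) (a : V) (io : W →L[ℝ] V) (N : ℕ) :
    ℕ → V × ℝ → W →L[ℝ] V
  | 0, _ => io
  | i + 1, q => Pi (sg a (q.1, nd N q.2 (i + 1))) ∘L ch Pi a io N i q

theorem contDiffAt_ch (h : Spread m Pi) (a : V) (io : W →L[ℝ] V) {N : ℕ} (hN : 0 < N)
    {S : Set V} (hS : ∀ p ∈ S, ∀ s ∈ Icc (0 : ℝ) 1, sg a (p, s) ≠ 0) {q : V × ℝ}
    (hq : q ∈ S ×ˢ Icc (0 : ℝ) 1) {i : ℕ} (hi : i ≤ N) :
    ContDiffAt ℝ ∞ (ch Pi a io N i) q := by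
  induction i with
  | zero => exact contDiffAt_const
  | succ i ih =>
    have h1 : ContDiff ℝ ∞ fun q : V × ℝ => sg a (q.1, nd N q.2 (i + 1)) := by
      refine (contDiff_sg a).comp (contDiff_fst.prodMk ?_)
      exact contDiff_const.sub ((contDiff_const.sub contDiff_snd).mul contDiff_const)
    have h2 : ContDiffAt ℝ ∞ (fun q : V × ℝ => Pi (sg a (q.1, nd N q.2 (i + 1)))) q :=
      (h.smooth _ (hS _ hq.1 _ (nd_mem hN hi hq.2))).comp q h1.contDiffAt
    exact h2.clm_comp (ih (by omega))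

/-- **transport of the leaf of `a` along the segments to the points of a compact set** -/
theorem exists_chain (h : Spread m Pi) {S : Set V} (hS : IsCompact S) {a : V} (ha : a ≠ 0)
    (hsg : ∀ p ∈ S, ∀ s ∈ Icc (0 : ℝ) 1, sg a (p, s) ≠ 0) {io : W →L[ℝ] V}
    (hio : Function.Injective io) (hioa : ∀ w, Pi a (io w) = io w) :
    ∃ T : V × ℝ → W →L[ℝ] V, ∀ q ∈ S ×ˢ Icc (0 : ℝ) 1, ContDiffAt ℝ ∞ T q ∧
      Function.Injective (T q) ∧ ∀ w, Pi (sg a q) (T q w) = T q w := by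
  have hcomp : IsCompact (S ×ˢ Icc (0 : ℝ) 1) := hS.prod isCompact_Icc
  have hcont : ContinuousOn (fun q => Pi (sg a q)) (S ×ˢ Icc (0 : ℝ) 1) := fun q hq =>
    ((h.smooth _ (hsg q.1 hq.1 q.2 hq.2)).continuousAt.comp
      (contDiff_sg a).continuous.continuousAt).continuousWithinAt
  have hu := hcomp.uniformContinuousOn_of_continuous hcont
  obtain ⟨δ, hδ, hδ1⟩ := Metric.uniformContinuousOn_iff.1 hu 1 one_pos
  obtain ⟨n, hn⟩ := exists_nat_one_div_lt hδ
  have hN : 0 < n + 1 := Nat.succ_pos n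
  refine ⟨ch Pi a io (n + 1) (n + 1), fun q hq => ⟨contDiffAt_ch h a io hN hsg hq le_rfl, ?_⟩⟩
  have key : ∀ i, i ≤ n + 1 → Function.Injective (ch Pi a io (n + 1) i q) ∧
      ∀ w, Pi (sg a (q.1, nd (n + 1) q.2 i)) (ch Pi a io (n + 1) i q w) =
        ch Pi a io (n + 1) i q w := by
    intro i
    induction i with
    | zero =>
      intro _
      refine ⟨hio, fun w => ?_⟩
      rw [nd_zero, sg_one]
      have h1 : Pi (-a) = Pi a := by
        have := h.hom ha (t := -1) (by norm_num)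
        rwa [neg_one_smul] at this
      rw [h1]
      exact hioa w
    | succ i ih =>
      intro hi
      obtain ⟨ih1, ih2⟩ := ih (by omega)
      have hm1 : (q.1, nd (n + 1) q.2 i) ∈ S ×ˢ Icc (0 : ℝ) 1 :=
        ⟨hq.1, nd_mem hN (by omega) hq.2⟩
      have hm2 : (q.1, nd (n + 1) q.2 (i + 1)) ∈ S ×ˢ Icc (0 : ℝ) 1 :=
        ⟨hq.1, nd_mem hN hi hq.2⟩
      have hd : dist (q.1, nd (n + 1) q.2 i) (q.1, nd (n + 1) q.2 (i + 1)) < δ := by
        rw [Prod.dist_eq, dist_self]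
        refine max_lt hδ ((nd_dist hN hq.2).trans_lt ?_)
        exact_mod_cast hn
      have hlt := hδ1 _ hm1 _ hm2 hd
      rw [dist_eq_norm] at hlt
      constructor
      · rw [injective_iff_map_eq_zero]
        intro w hw
        by_contra hw0
        have hv : ch Pi a io (n + 1) i q w ≠ 0 := fun h0 => hw0 (ih1 (by rw [h0, map_zero]))
        have hw' : Pi (sg a (q.1, nd (n + 1) q.2 (i + 1))) (ch Pi a io (n + 1) i q w) = 0 := hw
        have h1 : (Pi (sg a (q.1, nd (n + 1) q.2 i)) -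
            Pi (sg a (q.1, nd (n + 1) q.2 (i + 1)))) (ch Pi a io (n + 1) i q w) =
              ch Pi a io (n + 1) i q w := by
          rw [sub_apply, ih2, hw', sub_zero]
        have h2 := ContinuousLinearMap.le_opNorm (Pi (sg a (q.1, nd (n + 1) q.2 i)) -
            Pi (sg a (q.1, nd (n + 1) q.2 (i + 1)))) (ch Pi a io (n + 1) i q w)
        rw [h1] at h2
        have h3 : 0 < ‖ch Pi a io (n + 1) i q w‖ := norm_pos_iff.2 hv
        nlinarith
      · intro w
        exact h.idem _ (hsg _ hq.1 _ (nd_mem hN hi hq.2)) _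
  obtain ⟨k1, k2⟩ := key (n + 1) le_rfl
  rw [nd_last hN] at k2
  exact ⟨k1, k2⟩

end Vale.Agent.P231.TW
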