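import Vale.Agent.P231.TW.Rank

/-!
# P231, block TW: the degree of a map of rank at most `dim - 2` outside a proper set
-/

set_option linter.unusedSectionVars false
set_option linter.unusedVariables false

open Module MeasureTheory Set Metric Filter
open scoped ContDiff Topology

namespace Vale.Agent.P231.TW

open Fm WA

variable {E : Type*} [NormedAddCommGroup E] [NormedSpace ℝ E] [FiniteDimensional ℝ E]
  [MeasurableSpace E] [BorelSpace E]

variable {f : E → E} {A : Set E}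

theorem det_eq_zero_out (h2 : ∀ x ∉ A, rk (fderiv ℝ f x) + 2 ≤ finrank ℝ E) {x : E} (hx : x ∉ A) :
    (fderiv ℝ f x).det = 0 :=
  det_eq_zero_of_rk (by have := h2 x hx; omega)

/-- the degree near a regular value -/
theorem loc_deg (μ : Measure E) [μ.IsAddHaarMeasure] (hf : ContDiff ℝ ∞ f)
    (hA : ∀ K, IsCompact K → IsCompact (A ∩ f ⁻¹' K))
    (h2 : ∀ x ∉ A, rk (fderiv ℝ f x) + 2 ≤ finrank ℝ E) {y₀ : E}
    (hreg : ∀ x ∈ A, f x = y₀ → (fderiv ℝ f x).det ≠ 0) :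
    ∃ ε > 0, ∃ k : ℤ, ∀ g : E → ℝ, Continuous g → (∀ y ∉ ball y₀ ε, g y = 0) →
      ∫ x, g (f x) * (fderiv ℝ f x).det ∂μ = k * ∫ y, g y ∂μ := by
  have hdc : Continuous fun x => (fderiv ℝ f x).det :=
    ContinuousLinearMap.continuous_det.comp (hf.continuous_fderiv (by simp))
  set U : Set E := {x | (fderiv ℝ f x).det ≠ 0} with hU
  have hUo : IsOpen U := isOpen_ne_fun hdc continuous_const
  have hUA : U ⊆ A := fun x hx => by
    by_contra h
    exact hx (det_eq_zero_out h2 h)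
  -- the critical values in a closed ball
  have hC : IsCompact (A ∩ f ⁻¹' closedBall y₀ 1 ∩ Uᶜ) :=
    (hA _ (isCompact_closedBall y₀ 1)).inter_right hUo.isClosed_compl
  have hfC : IsCompact (f '' (A ∩ f ⁻¹' closedBall y₀ 1 ∩ Uᶜ)) :=
    hC.image hf.continuous
  have hy : y₀ ∉ f '' (A ∩ f ⁻¹' closedBall y₀ 1 ∩ Uᶜ) := by
    rintro ⟨x, ⟨⟨hxA, _⟩, hxU⟩, hxy⟩
    exact hxU (hreg x hxA hxy)
  obtain ⟨δ, hδ, hδs⟩ := nhds_basis_ball.mem_iff.1
    (Filter.inter_mem (hfC.isClosed.isOpen_compl.mem_nhds hy) (closedBall_mem_nhds y₀ one_pos))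
  have hp : ∀ K ⊆ ball y₀ δ, IsCompact K → IsCompact {x | x ∈ U ∧ f x ∈ K} := by
    intro K hK hKc
    have h3 : {x | x ∈ U ∧ f x ∈ K} = A ∩ f ⁻¹' K := by
      ext x
      constructor
      · rintro ⟨h4, h5⟩
        exact ⟨hUA h4, h5⟩
      · rintro ⟨h4, h5⟩
        refine ⟨?_, h5⟩
        by_contra h6
        exact (hδs (hK h5)).1 ⟨x, ⟨⟨h4, (hδs (hK h5)).2⟩, h6⟩, rfl⟩
    rw [h3]
    exact hA K hKc
  obtain ⟨ε, hε, k, hk⟩ := local_degree μ hUo isOpen_ball (hf.contDiffOn (s := U)) hp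
    (mem_ball_self hδ) (fun x hx _ => hx)
  refine ⟨ε, hε, k, fun g hg hg0 => ?_⟩
  rw [← hk g hg hg0]
  refine (setIntegral_eq_integral_of_forall_compl_eq_zero fun x hx => ?_).symm
  have h3 : (fderiv ℝ f x).det = 0 := by
    by_contra h
    exact hx h
  rw [h3, mul_zero]

/-- the degree near a value with only one preimage -/
theorem loc_one (μ : Measure E) [μ.IsAddHaarMeasure] (hf : ContDiff ℝ ∞ f)
    (hA : ∀ K, IsCompact K → IsCompact (A ∩ f ⁻¹' K))
    (h2 : ∀ x ∉ A, rk (fderiv ℝ f x) + 2 ≤ finrank ℝ E) {x₀ : E}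
    (hx₀ : (fderiv ℝ f x₀).det ≠ 0) (huniq : ∀ x ∈ A, f x = f x₀ → x = x₀) :
    ∃ ε > 0, ∃ k : ℤ, |k| = 1 ∧ ∀ g : E → ℝ, Continuous g → (∀ y ∉ ball (f x₀) ε, g y = 0) →
      ∫ x, g (f x) * (fderiv ℝ f x).det ∂μ = k * ∫ y, g y ∂μ := by
  obtain ⟨O, hO, hxO, -, hinj, himg, s, hs⟩ := exists_good_nhds isOpen_univ
    (hf.contDiffOn (s := univ)) (mem_univ x₀) hx₀
  have hC : IsCompact (A ∩ f ⁻¹' closedBall (f x₀) 1 ∩ Oᶜ) :=
    (hA _ (isCompact_closedBall _ 1)).inter_right hO.isClosed_compl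
  have hfC : IsCompact (f '' (A ∩ f ⁻¹' closedBall (f x₀) 1 ∩ Oᶜ)) := hC.image hf.continuous
  have hy : f x₀ ∉ f '' (A ∩ f ⁻¹' closedBall (f x₀) 1 ∩ Oᶜ) := by
    rintro ⟨x, ⟨⟨hxA, _⟩, hxU⟩, hxy⟩
    rw [huniq x hxA hxy] at hxU
    exact hxU hxO
  obtain ⟨ε, hε, hεs⟩ := nhds_basis_ball.mem_iff.1
    (Filter.inter_mem (Filter.inter_mem (hfC.isClosed.isOpen_compl.mem_nhds hy)
      (closedBall_mem_nhds _ one_pos)) (himg O subset_rfl hO hxO))
  have hs1 : |s| = 1 := by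
    have h3 := congrArg abs (hs x₀ hxO)
    rw [abs_mul, abs_abs] at h3
    have h4 : |((s : ℤ) : ℝ)| = 1 := by
      have h5 : |(fderiv ℝ f x₀).det| ≠ 0 := abs_ne_zero.2 hx₀
      exact (mul_right_cancel₀ h5 (by rw [one_mul]; exact h3)).symm
    exact_mod_cast h4
  refine ⟨ε, hε, s, hs1, fun g hg hg0 => ?_⟩
  have hder : ∀ z ∈ O, HasFDerivWithinAt f (fderiv ℝ f z) O z := fun z _ =>
    (hf.differentiable (by simp) z).hasFDerivAt.hasFDerivWithinAt
  have e1 : ∀ z ∈ O, g (f z) * (fderiv ℝ f z).det =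
      (s : ℝ) * (|(fderiv ℝ f z).det| • g (f z)) := by
    intro z hz
    conv_lhs => rw [hs z hz]
    rw [smul_eq_mul]
    ring
  have e2 : ∫ x, g (f x) * (fderiv ℝ f x).det ∂μ = ∫ x in O, g (f x) * (fderiv ℝ f x).det ∂μ := by
    refine (setIntegral_eq_integral_of_forall_compl_eq_zero fun x hx => ?_).symm
    by_cases hxA : x ∈ A
    · rw [hg0 (f x), zero_mul]
      intro hb
      exact (hεs hb).1.1 ⟨x, ⟨⟨hxA, (hεs hb).1.2⟩, hx⟩, rfl⟩
    · rw [det_eq_zero_out h2 hxA, mul_zero]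
  rw [e2, setIntegral_congr_fun hO.measurableSet e1, integral_const_mul,
    ← integral_image_eq_integral_abs_det_fderiv_smul μ hO.measurableSet hder hinj g]
  congr 1
  refine setIntegral_eq_integral_of_forall_compl_eq_zero fun y hy => hg0 y fun hyb => hy ?_
  exact (hεs hyb).2

theorem int_comp_det (μ : Measure E) [μ.IsAddHaarMeasure] (hf : ContDiff ℝ ∞ f)
    (hA : ∀ K, IsCompact K → IsCompact (A ∩ f ⁻¹' K))
    (h2 : ∀ x ∉ A, rk (fderiv ℝ f x) + 2 ≤ finrank ℝ E) {g : E → ℝ} (hg : Continuous g)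
    (hgc : HasCompactSupport g) : Integrable (fun x => g (f x) * (fderiv ℝ f x).det) μ := by
  have hdc : Continuous fun x => (fderiv ℝ f x).det :=
    ContinuousLinearMap.continuous_det.comp (hf.continuous_fderiv (by simp))
  refine ((hg.comp hf.continuous).mul hdc).integrable_of_hasCompactSupport
    (HasCompactSupport.intro (hA _ hgc.isCompact) fun x hx => ?_)
  change g (f x) * (fderiv ℝ f x).det = 0
  by_cases hxA : x ∈ A
  · rw [image_eq_zero_of_notMem_tsupport fun h => hx ⟨hxA, h⟩, zero_mul]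
  · rw [det_eq_zero_out h2 hxA, mul_zero]

/-- from small balls to the whole space -/
theorem glob_deg (μ : Measure E) [μ.IsAddHaarMeasure] (hf : ContDiff ℝ ∞ f)
    (hA : ∀ K, IsCompact K → IsCompact (A ∩ f ⁻¹' K))
    (h2 : ∀ x ∉ A, rk (fderiv ℝ f x) + 2 ≤ finrank ℝ E) (hE : 0 < finrank ℝ E) {y₀ : E} {ε : ℝ}
    (hε : 0 < ε) {k : ℤ}
    (hk : ∀ g : E → ℝ, Continuous g → (∀ y ∉ ball y₀ ε, g y = 0) →
      ∫ x, g (f x) * (fderiv ℝ f x).det ∂μ = k * ∫ y, g y ∂μ) {g : E → ℝ}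
    (hg : ContDiff ℝ ∞ g) (hgc : HasCompactSupport g) :
    ∫ x, g (f x) * (fderiv ℝ f x).det ∂μ = k * ∫ y, g y ∂μ := by
  obtain ⟨M, hM0, hM⟩ : ∃ M, 0 < M ∧ tsupport g ⊆ closedBall y₀ M :=
    (hgc.isCompact.isBounded.subset_closedBall_lt 0 y₀)
  have hR : 1 ≤ 1 + M / ε := by
    have : 0 < M / ε := by positivity
    linarith
  have hR0 : (0 : ℝ) < 1 + M / ε := by linarith
  set R : ℝ := 1 + M / ε with hRdef
  let gR : E → ℝ := fun y => R ^ finrank ℝ E * g (y₀ + R • (y - y₀))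
  have hgRc : ContDiff ℝ ∞ gR := by
    have : ContDiff ℝ ∞ fun y : E => y₀ + R • (y - y₀) := by fun_prop
    exact contDiff_const.mul (hg.comp this)
  have hgR0 : ∀ y ∉ ball y₀ ε, gR y = 0 := by
    intro y hy
    have h1 : g (y₀ + R • (y - y₀)) = 0 := by
      refine image_eq_zero_of_notMem_tsupport fun h => ?_
      have h2 := hM h
      rw [mem_closedBall, dist_eq_norm, add_sub_cancel_left, norm_smul, Real.norm_eq_abs,
        abs_of_pos hR0] at h2
      rw [mem_ball, dist_eq_norm, not_lt] at hy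
      have h3 : R * ε ≤ R * ‖y - y₀‖ := by gcongr
      have h4 : R * ε = ε + M := by
        rw [hRdef]
        field_simp
      linarith
    simp only [gR, h1, mul_zero]
  obtain ⟨n, hn⟩ : ∃ n, finrank ℝ E = n + 1 := ⟨finrank ℝ E - 1, by omega⟩
  let b : Basis (Fin (n + 1)) ℝ E := Module.finBasisOfFinrankEq ℝ E hn
  obtain ⟨τ, hτ1, hτ⟩ := exists_top b
  obtain ⟨η, hη, hηc, -, hηe⟩ := exists_prim hn hτ convex_univ hg hgc (subset_univ _)
    (mem_univ y₀) hR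
  have hw : ContDiff ℝ ∞ (pb f η) := contDiff_iff_contDiffAt.2 fun x =>
    contDiffAt_pb hf.contDiffAt hη.contDiffAt (by simp)
  have h1 : ∫ x, evalForm (pb f (extd η) x) b ∂μ = 0 := by
    have h3 := stokes_prt μ b (hw.of_le (by simp)) (hA _ hηc.isCompact) fun x hx => by
      by_cases hxA : x ∈ A
      · rw [pb, image_eq_zero_of_notMem_tsupport fun h => hx ⟨hxA, h⟩, map_zero, map_zero]
      · exact prt_pull_eq_zero (by have := h2 x hxA; omega) _
    rw [← h3]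
    congr 1
    funext x
    rw [extd_pb (hf.contDiffAt.of_le two_le_inf) (hη.differentiable (by simp) _)]
  have h4 : ∀ x, evalForm (pb f (extd η) x) b =
      gR (f x) * (fderiv ℝ f x).det - g (f x) * (fderiv ℝ f x).det := by
    intro x
    rw [pb, evalForm_pull_det, ← hηe, evalForm_apply, map_sub, map_sub, map_smul, map_smul,
      map_smul, map_smul, ← evalForm_apply, hτ1]
    change (fderiv ℝ f x).det * _ = _
    simp only [smul_eq_mul, mul_one, gR, hn]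
    ring
  have hgRs : HasCompactSupport gR := HasCompactSupport.intro (isCompact_closedBall y₀ ε)
    fun y hy => hgR0 y fun h => hy (ball_subset_closedBall h)
  have i1 := int_comp_det μ hf hA h2 hgRc.continuous hgRs
  have i2 := int_comp_det μ hf hA h2 hg.continuous hgc
  simp only [h4] at h1
  rw [integral_sub i1 i2, sub_eq_zero] at h1
  rw [← h1, hk gR hgRc.continuous hgR0, integral_homothety μ g y₀ hR0]

/-- **the degree of a map of rank at most `dim - 2` outside a proper set is an integer** -/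
theorem exists_int_degree2 (μ : Measure E) [μ.IsAddHaarMeasure] (hf : ContDiff ℝ ∞ f)
    (hA : ∀ K, IsCompact K → IsCompact (A ∩ f ⁻¹' K))
    (h2 : ∀ x ∉ A, rk (fderiv ℝ f x) + 2 ≤ finrank ℝ E) (hE : 0 < finrank ℝ E) :
    ∃ k : ℤ, ∀ g : E → ℝ, ContDiff ℝ ∞ g → HasCompactSupport g →
      ∫ x, g (f x) * (fderiv ℝ f x).det ∂μ = k * ∫ y, g y ∂μ := by
  have hC : μ (f '' {x | (fderiv ℝ f x).det = 0}) = 0 :=
    addHaar_image_eq_zero_of_det_fderivWithin_eq_zero μ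
    (fun x _ => (hf.differentiable (by simp) x).hasFDerivAt.hasFDerivWithinAt) (fun x hx => hx)
  obtain ⟨y₀, hyC⟩ : ∃ y₀, y₀ ∉ f '' {x | (fderiv ℝ f x).det = 0} := by
    by_contra h
    push Not at h
    rw [eq_univ_of_forall h] at hC
    exact (isOpen_univ.measure_pos μ univ_nonempty).ne' hC
  obtain ⟨ε, hε, k, hk⟩ := loc_deg μ hf hA h2 (y₀ := y₀)
    (fun x _ hxy hd => hyC ⟨x, hd, hxy⟩)
  exact ⟨k, fun g hg hgc => glob_deg μ hf hA h2 hE hε hk hg hgc⟩

/-- the degree is `±1` if there is a regular value with one preimage -/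
theorem exists_int_degree2_one (μ : Measure E) [μ.IsAddHaarMeasure] (hf : ContDiff ℝ ∞ f)
    (hA : ∀ K, IsCompact K → IsCompact (A ∩ f ⁻¹' K))
    (h2 : ∀ x ∉ A, rk (fderiv ℝ f x) + 2 ≤ finrank ℝ E) (hE : 0 < finrank ℝ E) {x₀ : E}
    (hx₀ : (fderiv ℝ f x₀).det ≠ 0) (huniq : ∀ x ∈ A, f x = f x₀ → x = x₀) :
    ∃ k : ℤ, |k| = 1 ∧ ∀ g : E → ℝ, ContDiff ℝ ∞ g → HasCompactSupport g →
      ∫ x, g (f x) * (fderiv ℝ f x).det ∂μ = k * ∫ y, g y ∂μ := by
  obtain ⟨ε, hε, k, hk1, hk⟩ := loc_one μ hf hA h2 hx₀ huniq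
  exact ⟨k, hk1, fun g hg hgc => glob_deg μ hf hA h2 hE hε hk hg hgc⟩

end Vale.Agent.P231.TW
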