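import Vale.Agent.P231.TW.BaseInt

/-!
# P231, block TW: the fibre integral of the step
-/

set_option linter.unusedSectionVars false
set_option linter.unusedVariables false

open Module MeasureTheory Set Metric Filter
open scoped ContDiff Topology

namespace Vale.Agent.P231.TW

open Fm WA FE

variable {V : Type*} [NormedAddCommGroup V] [InnerProductSpace ℝ V] [FiniteDimensional ℝ V]
  [MeasurableSpace V] [BorelSpace V]
variable {Z : Type*} [NormedAddCommGroup Z] [NormedSpace ℝ Z] [FiniteDimensional ℝ Z]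
  [MeasurableSpace Z] [BorelSpace Z]
variable {Y : Type*} [NormedAddCommGroup Y] [NormedSpace ℝ Y] [FiniteDimensional ℝ Y]
  [MeasurableSpace Y] [BorelSpace Y]
variable {m : ℕ} {Pi : V → V →L[ℝ] V} {psi : V → Lam V} {κ : ℝ}

/-- pullback of a basic form along a subordinate map -/
theorem pf_of_sub (h : Spread m Pi) (hm : 2 ≤ m) (A : Ang m Pi psi κ) {c : Z → V} {Ph : Z × Y → V}
    (hc : ContDiff ℝ ∞ c) (hP : ContDiff ℝ ∞ Ph) (hc0 : ∀ z, c z ≠ 0) (hP0 : ∀ w, Ph w ≠ 0)
    (hsub : ∀ w, Pi (c w.1) (Ph w) = Ph w) (w : Z × Y) :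
    pb Ph (extd psi) w = Q.pf (pb c (extd psi) w.1) := by
  have h1 : ContDiff ℝ ∞ fun w : Z × Y => c w.1 := hc.comp contDiff_fst
  rw [Bs.pb_eq h hm A.bs (hP.contDiffAt.of_le two_le_inf) (h1.contDiffAt.of_le two_le_inf)
    (hP0 w) (hc0 w.1) (Eventually.of_forall hsub)]
  rw [pb_comp (f := fun w : Z × Y => w.1) (extd psi) (hc.differentiable (by simp) _)
    differentiableAt_fst, pb, fderiv_fst]
  rfl

/-- **the fibre integral** -/
theorem fib_int (h : Spread m Pi) (hm : 2 ≤ m) (A : Ang m Pi psi κ) {c : Z → V} {Ph : Z × Y → V}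
    (hc : ContDiff ℝ ∞ c) (hP : ContDiff ℝ ∞ Ph) (hc0 : ∀ z, c z ≠ 0) (hP0 : ∀ w, Ph w ≠ 0)
    (hsub : ∀ w, Pi (c w.1) (Ph w) = Ph w) {N j : ℕ} (bZ : Basis (Fin N) ℝ Z)
    (bY : Basis (Fin (m - 1)) ℝ Y) {K : Set Y} (hK : IsCompact K)
    (hKo : ∀ z, ∀ y ∉ K, fderiv ℝ (fun y => Ph (z, y)) y = 0)
    (hfib : ∀ z, |JJ bY (pb (fun y => Ph (z, y)) psi)| = κ) (hN : N = m * (j + 1))
    {K' : Set (Z × Y)} (hK' : IsCompact K')
    (hout : ∀ w ∉ K', evalForm (pb Ph (Q.om psi (j + 1)) w) (pB bZ bY) = 0) :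
    ∃ ε : ℝ, |ε| = 1 ∧ JJ (pB bZ bY) (pb Ph (Q.om psi (j + 1))) =
      ε * κ * JJ bZ (pb c (Fp psi j)) := by
  have hNZ : finrank ℝ Z = N := (finrank_eq_card_basis bZ).trans (Fintype.card_fin N)
  have hPpsi : ContDiff ℝ ∞ (pb Ph psi) := contDiff_iff_contDiffAt.2 fun w =>
    contDiffAt_pb (m := ∞) (n := ∞) hP.contDiffAt (A.at (hP0 w)) (by simp)
  have hPom : ContDiff ℝ ∞ (pb Ph (Q.om psi (j + 1))) := contDiff_iff_contDiffAt.2 fun w =>
    contDiffAt_pb (m := ∞) (n := ∞) hP.contDiffAt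
      ((A.smooth_om (j + 1)).contDiffAt (isOpen_compl_singleton.mem_nhds (hP0 w))) (by simp)
  -- the fibre function
  let q : Z → Y → ℝ := fun z y => Fm.aug (slice bY (pb Ph psi (z, y)))
  have hq : ∀ z y, q z y = evalForm (pb (fun y => Ph (z, y)) psi y) bY := by
    intro z y
    have hd : DifferentiableAt ℝ Ph (z, y) := hP.differentiable (by simp) _
    have h1 : HasFDerivAt (fun y => Ph (z, y)) (fderiv ℝ Ph (z, y) ∘L
        ContinuousLinearMap.inr ℝ Z Y) y :=
      HasFDerivAt.comp (g := Ph) (f := fun y : Y => (z, y)) y hd.hasFDerivAt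
        (hasFDerivAt_prodMk_right z y)
    change Fm.aug (slice bY (pb Ph psi (z, y))) = _
    rw [Q.aug_slice]
    have h2 : pull (ContinuousLinearMap.inr ℝ Z Y) (pb Ph psi (z, y)) =
        pb (fun y => Ph (z, y)) psi y := by
      change pull _ (pull (fderiv ℝ Ph (z, y)) (psi (Ph (z, y)))) =
        pull (fderiv ℝ (fun y => Ph (z, y)) y) (psi (Ph (z, y)))
      rw [h1.fderiv, pull_comp_apply]
    rw [h2]
  have hqc : Continuous (Function.uncurry q) :=
    (Q.augL (E := Z)).continuous.comp ((slice (E := Z) bY).continuous.comp hPpsi.continuous)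
  have hq0 : ∀ z, ∀ y ∉ K, q z y = 0 := by
    intro z y hy
    rw [hq, ← evalForm_prt, pb, hKo z y hy, prt_pull_eq_zero (by rw [rk_zero]; omega)]
    exact map_zero (evalL bY)
  let Kap : Z → ℝ := fun z => ∫ y, q z y ∂bY.addHaar
  have hKap : ∀ z, |Kap z| = κ := by
    intro z
    rw [← hfib z]
    unfold JJ
    simp only [Kap, hq]
  have hKapc : Continuous Kap := by
    have h1 := continuous_parametric_integral_of_continuous (μ := bY.addHaar) hqc hK
    refine h1.congr fun z => ?_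
    exact setIntegral_eq_integral_of_forall_compl_eq_zero fun y hy => hq0 z y hy
  -- constant sign
  obtain ⟨ε, hε, hKε⟩ : ∃ ε : ℝ, |ε| = 1 ∧ ∀ z, Kap z = ε * κ := by
    by_cases hκ : κ = 0
    · refine ⟨1, abs_one, fun z => ?_⟩
      have := hKap z
      rw [hκ, abs_eq_zero] at this
      rw [this, hκ, mul_zero]
    · have hsq : EqOn (Kap ^ 2) ((fun _ : Z => κ) ^ 2) univ := fun z _ => by
        change Kap z ^ 2 = κ ^ 2
        rw [← hKap z, sq_abs]
      rcases (isPreconnected_univ (α := Z)).eq_or_eq_neg_of_sq_eq hKapc.continuousOn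
        continuousOn_const hsq (fun _ => hκ) with h1 | h1
      · exact ⟨1, abs_one, fun z => by rw [h1 (mem_univ z), one_mul]⟩
      · refine ⟨-1, by rw [abs_neg, abs_one], fun z => ?_⟩
        rw [h1 (mem_univ z)]
        simp
  refine ⟨ε, hε, ?_⟩
  -- the integrand
  have hval : ∀ w : Z × Y, evalForm (slice bY (pb Ph (Q.om psi (j + 1)) w)) bZ =
      q w.1 w.2 * evalForm (pb c (Fp psi j) w.1) bZ := by
    intro w
    have h1 : pb Ph (Q.om psi (j + 1)) w =
        pb Ph psi w * Q.pf (pb c (Fp psi j) w.1) := by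
      have h2 : pb Ph (Q.om psi (j + 1)) w = pb Ph psi w * (pb Ph (extd psi) w) ^ (j + 1) := by
        change pull _ (psi (Ph w) * extd psi (Ph w) ^ (j + 1)) = _
        rw [map_mul, map_pow]
        rfl
      have h3 : pb c (Fp psi j) w.1 = pb c (extd psi) w.1 ^ (j + 1) := by
        change pull _ (extd psi (c w.1) ^ (j + 1)) = _
        rw [map_pow]
        rfl
      rw [h2, h3, pf_of_sub h hm A hc hP hc0 hP0 hsub w, Q.pf, Q.pf, map_pow]
    have h4 : prt N (pb c (Fp psi j) w.1) = pb c (Fp psi j) w.1 := by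
      rw [pb, prt_pull, hN, A.prt_Fp (by omega) j (hc0 _)]
    rw [h1, Q.slice_mul_pf, mul_top_prt hNZ h4]
    exact map_smul (evalL bZ) _ _
  rw [JJ_pB bZ bY ((evalL (pB bZ bY)).continuous.comp hPom.continuous) hK' hout]
  have h5 : ∀ z, ∫ y, evalForm (slice bY (pb Ph (Q.om psi (j + 1)) (z, y))) bZ ∂bY.addHaar =
      ε * κ * evalForm (pb c (Fp psi j) z) bZ := by
    intro z
    simp only [hval]
    rw [integral_mul_const, ← hKε z]
  simp only [h5]
  rw [integral_const_mul]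
  rfl

end Vale.Agent.P231.TW
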