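import Vale.Agent.P231.TW.Ang
import Vale.Agent.P231.TW.Chain

/-!
# P231, block TW: auxiliary facts for the step of the tower
-/

set_option linter.unusedSectionVars false
set_option linter.unusedVariables false

open Module MeasureTheory Set Metric Filter
open scoped ContDiff Topology

namespace Vale.Agent.P231.TW

open Fm WA FE

section Alg

variable {E : Type*} [NormedAddCommGroup E] [NormedSpace ℝ E] [FiniteDimensional ℝ E]
variable {F : Type*} [NormedAddCommGroup F] [NormedSpace ℝ F] [FiniteDimensional ℝ F]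

/-- an element of top degree absorbs -/
theorem mul_top_prt {N : ℕ} (hN : finrank ℝ E = N) {g : Lam E} (hg : prt N g = g) (w : Lam E) :
    w * g = Fm.aug w • g := by
  induction w using Lam.left_ind with
  | h1 r => rw [AlgHom.commutes, ← Algebra.smul_def]; rfl
  | h2 a w ih =>
    rw [mul_assoc, ih, mul_smul_comm]
    have h1 : prt (N + 1) (dxl a * g) = dxl a * g := by rw [prt_succ_dxl_mul, hg]
    have h2 : dxl a * g = 0 := by
      rw [← h1, prt_eq_zero (by omega)]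
    have h3 : Fm.aug (dxl a * w) = 0 := by
      rw [map_mul, ← dx_eq, aug_dx, zero_mul]
    rw [h2, h3, smul_zero, zero_smul]
  | h3 a b ha hb => rw [add_mul, ha, hb, map_add, add_smul]

theorem prt_pow_of_eq {j : ℕ} {v : Lam E} (hv : prt j v = v) (n : ℕ) :
    prt (j * n) (v ^ n) = v ^ n := by
  induction n with
  | zero => rw [mul_zero, pow_zero, prt_one, if_pos rfl]
  | succ n ih => rw [Nat.mul_succ, pow_succ, prt_mul_of_eq ih hv]

/-- the degree of an exterior derivative -/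
theorem prt_extd_of_eq {k : ℕ} {w : E → Lam E} {x : E} (hd : DifferentiableAt ℝ w x)
    (hw : ∀ᶠ y in 𝓝 x, prt k (w y) = w y) : prt (k + 1) (extd w x) = extd w x := by
  have h1 : HasFDerivAt (fun y => prtL k (w y)) (prtL k ∘L fderiv ℝ w x) x :=
    (prtL (E := E) k).hasFDerivAt.comp x hd.hasFDerivAt
  have h2 : (fun y => prtL k (w y)) =ᶠ[𝓝 x] w := hw
  have h3 := (h1.congr_of_eventuallyEq h2.symm).unique hd.hasFDerivAt
  rw [extd, prt_succ_dLin]
  have h4 : dLin (prtL k ∘L fderiv ℝ w x) = dLin (fderiv ℝ w x) := by rw [h3]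
  exact h4

theorem smul_lam {f : E → ℝ} {g : E → Lam F} {x : E} (hf : ContDiffAt ℝ ∞ f x)
    (hg : ContDiffAt ℝ ∞ g x) : ContDiffAt ℝ ∞ (fun z => f z • g z) x := hf.smul hg

end Alg

section Int

variable {X : Type*} [NormedAddCommGroup X] [NormedSpace ℝ X] [FiniteDimensional ℝ X]
  [MeasurableSpace X] [BorelSpace X]
variable {Y : Type*} [NormedAddCommGroup Y] [NormedSpace ℝ Y] [FiniteDimensional ℝ Y]
  [MeasurableSpace Y] [BorelSpace Y]

/-- Stokes, with a free index -/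
theorem JJ_extd' {N k : ℕ} (hN : N = k + 1) (b : Basis (Fin N) ℝ X) {w : X → Lam X}
    (hw : ContDiff ℝ 1 w) {K : Set X} (hK : IsCompact K) (hc : ∀ x ∉ K, prt k (w x) = 0) :
    JJ b (extd w) = 0 := by
  subst hN
  exact JJ_extd b hw hK hc

/-- the integral of `dh ∧ ν` -/
theorem JJ_ray {k : ℕ} (bX : Basis (Fin k) ℝ X) {h : ℝ → ℝ} (hh : Continuous h) {a b : ℝ}
    (h0 : ∀ t ∉ Icc a b, h t = 0) {ν : X → Lam X} (hν : Continuous fun x => evalForm (ν x) bX)
    {K : Set X} (hK : IsCompact K) (hνK : ∀ x ∉ K, evalForm (ν x) bX = 0) :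
    Integrable (fun z : X × ℝ => evalForm
        (h z.2 • (dx (ContinuousLinearMap.snd ℝ X ℝ) * Q.pf (ν z.1)) : Lam (X × ℝ))
        (pB bX bR)) (pB bX bR).addHaar ∧
    JJ (pB bX bR) (fun z : X × ℝ => h z.2 • (dx (ContinuousLinearMap.snd ℝ X ℝ) *
      Q.pf (ν z.1))) = (∫ t, h t) * JJ bX ν := by
  have hsl : ∀ z : X × ℝ, slice bR (h z.2 • (dx (ContinuousLinearMap.snd ℝ X ℝ) *
      Q.pf (ν z.1)) : Lam (X × ℝ)) = h z.2 • ν z.1 := by
    intro z
    rw [map_smul, slice_apply, cont_succ]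
    change h z.2 • pull (ContinuousLinearMap.inl ℝ X ℝ) (iprod (vert bR 0)
      (dx (ContinuousLinearMap.snd ℝ X ℝ) * Q.pf (ν z.1))) = _
    rw [iprod_dx_mul]
    have h1 : iprod (vert (E := X) bR 0) (Q.pf (ν z.1)) = 0 := Q.iprod_vert_pf _ _
    have h2 : (ContinuousLinearMap.snd ℝ X ℝ) (vert bR 0) = 1 := bR_apply 0
    rw [h1, h2, mul_zero, sub_zero, one_smul, Q.pull_inl_pf]
  have hev : ∀ z : X × ℝ, evalForm (h z.2 • (dx (ContinuousLinearMap.snd ℝ X ℝ) *
      Q.pf (ν z.1)) : Lam (X × ℝ)) (pB bX bR) = h z.2 * evalForm (ν z.1) bX := by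
    intro z
    rw [evalForm_pB, hsl]
    exact map_smul (evalL bX) _ _
  have hc : Continuous fun z : X × ℝ => evalForm (h z.2 •
      (dx (ContinuousLinearMap.snd ℝ X ℝ) * Q.pf (ν z.1)) : Lam (X × ℝ)) (pB bX bR) := by
    simp only [hev]
    exact (hh.comp continuous_snd).mul (hν.comp continuous_fst)
  have hcK : ∀ z : X × ℝ, z ∉ K ×ˢ Icc a b → evalForm (h z.2 •
      (dx (ContinuousLinearMap.snd ℝ X ℝ) * Q.pf (ν z.1)) : Lam (X × ℝ)) (pB bX bR) = 0 := by
    intro z hz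
    rw [hev]
    by_cases hzK : z.1 ∈ K
    · rw [h0 z.2 fun h3 => hz ⟨hzK, h3⟩, zero_mul]
    · rw [hνK _ hzK, mul_zero]
  refine ⟨hc.integrable_of_hasCompactSupport
    (HasCompactSupport.intro (hK.prod isCompact_Icc) hcK), ?_⟩
  rw [JJ_pB bX bR (K := K ×ˢ Icc a b) hc (hK.prod isCompact_Icc) hcK]
  unfold JJ
  rw [← integral_const_mul]
  refine integral_congr_ae (Eventually.of_forall fun x => ?_)
  simp only
  have h1 : ∀ y, evalForm (slice bR (h y •
      (dx (ContinuousLinearMap.snd ℝ X ℝ) * Q.pf (ν x)) : Lam (X × ℝ))) bX =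
      h y * evalForm (ν x) bX := by
    intro y
    have h2 := hsl (x, y)
    simp only at h2
    rw [h2]
    exact map_smul (evalL bX) _ _
  simp only [h1]
  rw [integral_mul_const, addHaar_bR]

end Int

section Rank

variable {V : Type*} [NormedAddCommGroup V] [InnerProductSpace ℝ V] [FiniteDimensional ℝ V]
variable {Z : Type*} [NormedAddCommGroup Z] [NormedSpace ℝ Z] [FiniteDimensional ℝ Z]
variable {Y : Type*} [NormedAddCommGroup Y] [NormedSpace ℝ Y] [FiniteDimensional ℝ Y]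
variable {m : ℕ} {Pi : V → V →L[ℝ] V}

theorem fderiv_comp_fst {c : Z → V} {w : Z × Y} (hc : DifferentiableAt ℝ c w.1) :
    fderiv ℝ (fun w : Z × Y => c w.1) w = fderiv ℝ c w.1 ∘L ContinuousLinearMap.fst ℝ Z Y :=
  (HasFDerivAt.comp (g := c) (f := fun w : Z × Y => w.1) w hc.hasFDerivAt hasFDerivAt_fst).fderiv

theorem rk_comp_fst {c : Z → V} {w : Z × Y} (hc : DifferentiableAt ℝ c w.1) :
    rk (fderiv ℝ (fun w : Z × Y => c w.1) w) ≤ rk (fderiv ℝ c w.1) := by
  rw [fderiv_comp_fst hc]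
  exact rk_comp_right _ _

theorem nrk_comp_fst {c : Z → V} {w : Z × Y} (hc : DifferentiableAt ℝ c w.1) :
    nrk Pi (fun w : Z × Y => c w.1) w ≤ nrk Pi c w.1 := by
  unfold nrk
  rw [fderiv_comp_fst hc]
  have h1 : fderiv ℝ c w.1 ∘L ContinuousLinearMap.fst ℝ Z Y -
      Pi (c w.1) ∘L (fderiv ℝ c w.1 ∘L ContinuousLinearMap.fst ℝ Z Y) =
      (fderiv ℝ c w.1 - Pi (c w.1) ∘L fderiv ℝ c w.1) ∘L ContinuousLinearMap.fst ℝ Z Y := by
    ext <;> simp
  rw [h1]
  exact rk_comp_right _ _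

end Rank

end Vale.Agent.P231.TW
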