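import Vale.Agent.P231.TW.Cone
import Vale.Agent.P231.FE.Defs

/-!
# P231, block TW: maps subordinate to a spread

`Sub Pi c f z` : near `z` the map `f` takes values in the planes of `c`.
-/

set_option linter.unusedSectionVars false
set_option linter.unusedVariables false

open Module MeasureTheory Set Metric Filter
open scoped ContDiff Topology

namespace Vale.Agent.P231.TW

open Fm WA FE

variable {V : Type*} [NormedAddCommGroup V] [InnerProductSpace ℝ V] [FiniteDimensional ℝ V]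
variable {Z : Type*} [NormedAddCommGroup Z] [NormedSpace ℝ Z] [FiniteDimensional ℝ Z]
variable {Z' : Type*} [NormedAddCommGroup Z'] [NormedSpace ℝ Z'] [FiniteDimensional ℝ Z']
variable {m : ℕ} {Pi : V → V →L[ℝ] V}

theorem Spread.diff (h : Spread m Pi) {u : V} (hu : u ≠ 0) : DifferentiableAt ℝ Pi u :=
  (h.smooth u hu).differentiableAt (by simp)

/-- the derivative of the projections vanishes along the leaves -/
theorem Spread.fderiv_leaf (h : Spread m Pi) {c w : V} (hc : c ≠ 0) (hw : Pi c w = w) :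
    fderiv ℝ Pi c w = 0 := by
  have h0 : HasFDerivAt Pi (fderiv ℝ Pi c) (c + (0 : ℝ) • w) := by
    rw [zero_smul, add_zero]
    exact (Spread.diff h hc).hasFDerivAt
  have h1 : HasDerivAt (fun s : ℝ => c + s • w) ((1 : ℝ) • w) 0 :=
    ((hasDerivAt_id (0 : ℝ)).smul_const w).const_add c
  have h2 := h0.comp_hasDerivAt (0 : ℝ) h1
  have h3 : (Pi ∘ fun s : ℝ => c + s • w) =ᶠ[𝓝 (0 : ℝ)] fun _ => Pi c := by
    have h4 : ∀ᶠ s : ℝ in 𝓝 0, c + s • w ≠ 0 := by
      have h5 : ContinuousAt (fun s : ℝ => c + s • w) 0 := h1.continuousAt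
      refine h5.eventually_ne ?_
      rwa [zero_smul, add_zero]
    filter_upwards [h4] with s hs
    exact h.rel c _ hc hs (by rw [map_add, map_smul, hw, h.self c hc])
  have h4 := (h2.congr_of_eventuallyEq h3.symm).unique (hasDerivAt_const (0 : ℝ) (Pi c))
  rwa [one_smul] at h4

/-- the normal rank -/
noncomputable def nrk (Pi : V → V →L[ℝ] V) (f : Z → V) (z : Z) : ℕ :=
  rk (fderiv ℝ f z - Pi (f z) ∘L fderiv ℝ f z)

/-- the normal derivative of a subordinate map factors through the one of the base map -/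
theorem Spread.normal (h : Spread m Pi) {f c : Z → V} {z : Z} (hf : DifferentiableAt ℝ f z)
    (hc : DifferentiableAt ℝ c z) (hf0 : f z ≠ 0) (hc0 : c z ≠ 0)
    (hs : ∀ᶠ y in 𝓝 z, Pi (c y) (f y) = f y) (u : Z) :
    fderiv ℝ f z u - Pi (f z) (fderiv ℝ f z u) =
      fderiv ℝ Pi (c z) (fderiv ℝ c z u - Pi (c z) (fderiv ℝ c z u)) (f z) := by
  have e0 : Pi (f z) = Pi (c z) := h.rel _ _ hc0 hf0 hs.self_of_nhds
  have h1 : HasFDerivAt (fun y => Pi (c y)) (fderiv ℝ Pi (c z) ∘L fderiv ℝ c z) z :=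
    (Spread.diff h hc0).hasFDerivAt.comp z hc.hasFDerivAt
  have h2 := h1.clm_apply hf.hasFDerivAt
  have h3 : (fun y => Pi (c y) (f y)) =ᶠ[𝓝 z] f := hs
  have h4 := (h2.congr_of_eventuallyEq h3.symm).unique hf.hasFDerivAt
  have h5 := congrArg (fun L : Z →L[ℝ] V => L u) h4
  simp only [add_apply, ContinuousLinearMap.comp_apply,
    ContinuousLinearMap.flip_apply] at h5
  have h6 : fderiv ℝ Pi (c z) (Pi (c z) (fderiv ℝ c z u)) = 0 :=
    Spread.fderiv_leaf h hc0 (h.idem _ hc0 _)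
  rw [map_sub, h6, sub_zero, e0]
  exact (eq_sub_of_add_eq' h5).symm

theorem Spread.nrk_le (h : Spread m Pi) {f c : Z → V} {z : Z} (hf : DifferentiableAt ℝ f z)
    (hc : DifferentiableAt ℝ c z) (hf0 : f z ≠ 0) (hc0 : c z ≠ 0)
    (hs : ∀ᶠ y in 𝓝 z, Pi (c y) (f y) = f y) : nrk Pi f z ≤ nrk Pi c z := by
  have h1 : fderiv ℝ f z - Pi (f z) ∘L fderiv ℝ f z =
      (ContinuousLinearMap.apply ℝ V (f z) ∘L fderiv ℝ Pi (c z)) ∘L
        (fderiv ℝ c z - Pi (c z) ∘L fderiv ℝ c z) := by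
    ext u
    exact Spread.normal h hf hc hf0 hc0 hs u
  unfold nrk
  rw [h1]
  exact rk_comp_left _ _

theorem nrk_le_rk (f : Z → V) (z : Z) : nrk Pi f z ≤ rk (fderiv ℝ f z) := by
  have h1 : fderiv ℝ f z - Pi (f z) ∘L fderiv ℝ f z =
      (ContinuousLinearMap.id ℝ V - Pi (f z)) ∘L fderiv ℝ f z := by
    ext u
    simp
  unfold nrk
  rw [h1]
  exact rk_comp_left _ _

theorem nrk_const (v : V) (z : Z) : nrk Pi (fun _ : Z => v) z = 0 := by
  have h1 := nrk_le_rk (Pi := Pi) (fun _ : Z => v) z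
  rw [fderiv_const_apply, rk_zero] at h1
  omega

theorem nrk_congr {f g : Z → V} {z : Z} (h : f =ᶠ[𝓝 z] g) : nrk Pi f z = nrk Pi g z := by
  unfold nrk
  rw [h.fderiv_eq, h.eq_of_nhds]

/-- a derivative orthogonal to the value has tangential rank at most `m - 1` -/
theorem Spread.rk_le (h : Spread m Pi) {f : Z → V} {z : Z} (hf : DifferentiableAt ℝ f z)
    (hn : ∀ y, ‖f y‖ = 1) : rk (fderiv ℝ f z) + 1 ≤ nrk Pi f z + m := by
  have hf0 : f z ≠ 0 := by
    intro h0
    have := hn z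
    rw [h0, norm_zero] at this
    exact zero_ne_one this
  have hort : ∀ u, inner ℝ (f z) (fderiv ℝ f z u) = 0 := by
    intro u
    have h2 := hf.hasFDerivAt.norm_sq
    have h3 : (fun x => ‖f x‖ ^ 2) = fun _ => 1 := by
      funext x
      rw [hn, one_pow]
    rw [h3] at h2
    have h4 := congrArg (fun L : Z →L[ℝ] ℝ => L u) (h2.unique (hasFDerivAt_const 1 z))
    simpa using h4
  have h1 : fderiv ℝ f z = (fderiv ℝ f z - Pi (f z) ∘L fderiv ℝ f z) +
      Pi (f z) ∘L fderiv ℝ f z := by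
    rw [sub_add_cancel]
  have h2 : rk (fderiv ℝ f z) ≤ nrk Pi f z + rk (Pi (f z) ∘L fderiv ℝ f z) := by
    conv_lhs => rw [h1]
    exact rk_add _ _
  have h3 : rk (Pi (f z) ∘L fderiv ℝ f z) < m := by
    rw [← h.rank (f z) hf0]
    refine Submodule.finrank_lt_finrank_of_lt ?_
    refine lt_of_le_of_ne (LinearMap.range_comp_le_range (fderiv ℝ f z : Z →ₗ[ℝ] V)
      (Pi (f z) : V →ₗ[ℝ] V)) fun h4 => ?_
    have h5 : f z ∈ LinearMap.range (Pi (f z) : V →ₗ[ℝ] V) := ⟨f z, h.self _ hf0⟩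
    rw [← h4] at h5
    obtain ⟨u, hu⟩ := h5
    have h6 : Pi (f z) (fderiv ℝ f z u) = f z := hu
    have h7 : inner ℝ (f z) (Pi (f z) (fderiv ℝ f z u)) = 0 := by
      rw [← h.symm _ hf0, h.self _ hf0, hort]
    rw [h6, real_inner_self_eq_norm_sq, hn] at h7
    norm_num at h7
  omega

end Vale.Agent.P231.TW
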