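import Vale.Agent.P231.TW.FibInt

/-!
# P231, block TW: the step of the tower
-/

set_option linter.unusedSectionVars false
set_option linter.unusedVariables false

open Module MeasureTheory Set Metric Filter
open scoped ContDiff Topology

namespace Vale.Agent.P231.TW

open Fm WA FE

variable {V : Type*} [NormedAddCommGroup V] [InnerProductSpace ℝ V] [FiniteDimensional ℝ V]
  [MeasurableSpace V] [BorelSpace V]
variable {X : Type*} [NormedAddCommGroup X] [NormedSpace ℝ X] [FiniteDimensional ℝ X]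
  [MeasurableSpace X] [BorelSpace X]
variable {m : ℕ} {Pi : V → V →L[ℝ] V} {psi : V → Lam V} {κ : ℝ}

/-- a stage of the tower -/
structure Stage (Pi : V → V →L[ℝ] V) (psi : V → Lam V) (κ : ℝ) (m j : ℕ) {k : ℕ}
    (bX : Basis (Fin k) ℝ X) (K : Set X) (Φ : X → V) : Prop where
  cyc : Cyc K Φ
  surj : ∀ x, ∃ x' ∈ K, Φ x' = Φ x
  nr : ∀ x, nrk Pi Φ x + m ≤ k + 1
  dim : k + 1 = m * (j + 1)
  int : |JJ bX (pb Φ (Q.om psi j))| = κ ^ (j + 1)

/-- a unit vector which is not a value -/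
theorem exists_unit (Φ : X → V) (hΦ : ContDiff ℝ ∞ Φ) (hd : finrank ℝ X + 1 < finrank ℝ V) :
    ∃ a : V, ‖a‖ = 1 ∧ ∀ x, Φ x ≠ a := by
  have h1 : ContDiff ℝ 1 fun z : X × ℝ => z.2 • Φ z.1 :=
    (contDiff_snd.smul (hΦ.comp contDiff_fst)).of_le (by simp)
  have h2 := h1.dense_compl_range_of_finrank_lt_finrank (by
    rw [finrank_prod, finrank_self]
    exact hd)
  obtain ⟨v, hv⟩ := h2.nonempty
  have hv0 : v ≠ 0 := by
    rintro rfl
    exact hv ⟨(0, 0), by simp⟩
  refine ⟨rad v, norm_rad hv0, fun x hx => hv ⟨(x, ‖v‖), ?_⟩⟩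
  simp only
  rw [hx, rad, smul_smul, mul_inv_cancel₀ (norm_ne_zero_iff.2 hv0), one_smul]

/-- an isometric parametrisation of a leaf -/
theorem exists_leaf (h : Spread m Pi) {a : V} (ha : a ≠ 0) :
    ∃ S : EuclideanSpace ℝ (Fin m) →ₗᵢ[ℝ] V, ∀ w, Pi a (S w) = S w := by
  let R := LinearMap.range (Pi a : V →ₗ[ℝ] V)
  have hR : finrank ℝ R = m := h.rank a ha
  let S0 : EuclideanSpace ℝ (Fin m) ≃ₗᵢ[ℝ] R :=
    ((stdOrthonormalBasis ℝ R).reindex (finCongr hR)).repr.symm
  refine ⟨R.subtypeₗᵢ.comp S0.toLinearIsometry, fun w => ?_⟩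
  obtain ⟨v, hv⟩ := (S0 w).2
  have h1 : Pi a v = (R.subtypeₗᵢ.comp S0.toLinearIsometry) w := hv
  rw [← h1, h.idem a ha]

/-- **the step of the tower** -/
theorem Stage.step (h : Spread m Pi) (hm : 3 ≤ m) (A : Ang m Pi psi κ) {j k : ℕ}
    {bX : Basis (Fin k) ℝ X} {K : Set X} {Φ : X → V} (S : Stage Pi psi κ m j bX K Φ)
    (hd : k + 1 < finrank ℝ V) {e0 : EuclideanSpace ℝ (Fin m)} (he : ‖e0‖ = 1)
    (bY : Basis (Fin (m - 1)) ℝ (Submodule.span ℝ {e0})ᗮ) :
    ∃ (K' : Set ((X × ℝ) × (Submodule.span ℝ {e0})ᗮ))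
      (Φ' : (X × ℝ) × (Submodule.span ℝ {e0})ᗮ → V),
      Stage Pi psi κ m (j + 1) (pB (pB bX bR) bY) K' Φ' := by
  have hkX : finrank ℝ X = k := (finrank_eq_card_basis bX).trans (Fintype.card_fin k)
  have hmk : m ≤ k + 1 := by
    rw [S.dim]
    exact Nat.le_mul_of_pos_right m (Nat.succ_pos j)
  have hYdim : finrank ℝ (Submodule.span ℝ {e0})ᗮ = m - 1 :=
    (finrank_eq_card_basis bY).trans (Fintype.card_fin _)
  have he0 : e0 ≠ 0 := by
    intro h
    rw [h, norm_zero] at he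
    exact zero_ne_one he
  obtain ⟨a, ha, haΦ⟩ := exists_unit Φ S.cyc.smooth (by omega)
  have ha0 : a ≠ 0 := by
    intro h
    rw [h, norm_zero] at ha
    exact zero_ne_one ha
  obtain ⟨io, hio⟩ := exists_leaf h ha0
  have hsg : ∀ x, ∀ s ∈ Icc (0 : ℝ) 1, sg a (Φ x, s) ≠ 0 := fun x s hs =>
    sg_ne ha (S.cyc.norm x) (haΦ x) hs.1 hs.2
  have hcomp : IsCompact (Φ '' K) := S.cyc.compact.image S.cyc.smooth.continuous
  obtain ⟨T, hT⟩ := exists_chain h hcomp ha0 (by
    rintro _ ⟨x, -, rfl⟩ s hs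
    exact hsg x s hs) (io := io.toContinuousLinearMap) io.injective hio
  have hmem : ∀ z : X × ℝ, (Φ z.1, Real.smoothTransition z.2) ∈ (Φ '' K) ×ˢ Icc (0 : ℝ) 1 := by
    intro z
    obtain ⟨x', hx', hxx⟩ := S.surj z.1
    exact ⟨⟨x', hx', hxx⟩, Real.smoothTransition.nonneg _, Real.smoothTransition.le_one _⟩
  -- the maps
  let c : X × ℝ → V := pth a Φ
  have hc : ContDiff ℝ ∞ c := contDiff_pth S.cyc.smooth
  have hc0 : ∀ z, c z ≠ 0 := fun z =>
    hsg z.1 _ ⟨Real.smoothTransition.nonneg _, Real.smoothTransition.le_one _⟩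
  let Tz : X × ℝ → EuclideanSpace ℝ (Fin m) →L[ℝ] V := fun z =>
    T (Φ z.1, Real.smoothTransition z.2)
  have hTz : ContDiff ℝ ∞ Tz := by
    refine contDiff_iff_contDiffAt.2 fun z => ?_
    have h1 : ContDiff ℝ ∞ fun z : X × ℝ => (Φ z.1, Real.smoothTransition z.2) :=
      (S.cyc.smooth.comp contDiff_fst).prodMk
        ((Real.smoothTransition.contDiff (n := (⊤ : ℕ∞))).comp contDiff_snd)
    exact (hT _ (hmem z)).1.comp z h1.contDiffAt
  have hTi : ∀ z, Function.Injective (Tz z) := fun z => (hT _ (hmem z)).2.1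
  have hTP : ∀ z w, Pi (c z) (Tz z w) = Tz z w := fun z => (hT _ (hmem z)).2.2
  let pre : (X × ℝ) × (Submodule.span ℝ {e0})ᗮ → V := fun w => Tz w.1 (th e0 w.2)
  have hpre : ContDiff ℝ ∞ pre :=
    (hTz.comp contDiff_fst).clm_apply ((contDiff_th he).comp contDiff_snd)
  have hth0 : ∀ y, th e0 y ≠ 0 := fun y => by
    rw [← norm_ne_zero_iff, norm_th he]
    exact one_ne_zero
  have hpre0 : ∀ w, pre w ≠ 0 := fun w h0 => hth0 w.2 (hTi w.1 (by
    rw [map_zero]
    exact h0))
  let Ph : (X × ℝ) × (Submodule.span ℝ {e0})ᗮ → V := fun w => rad (pre w)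
  have hPh : ContDiff ℝ ∞ Ph := contDiff_iff_contDiffAt.2 fun w =>
    (contDiffAt_rad (hpre0 w)).comp w hpre.contDiffAt
  have hPn : ∀ w, ‖Ph w‖ = 1 := fun w => norm_rad (hpre0 w)
  have hP0 : ∀ w, Ph w ≠ 0 := fun w => by
    rw [← norm_ne_zero_iff, hPn]
    exact one_ne_zero
  have hsub : ∀ w, Pi (c w.1) (Ph w) = Ph w := by
    intro w
    change Pi (c w.1) (‖pre w‖⁻¹ • pre w) = ‖pre w‖⁻¹ • pre w
    rw [map_smul]
    congr 1
    exact hTP _ _
  -- ranks
  have hnrP : ∀ w, nrk Pi Ph w ≤ nrk Pi c w.1 := by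
    intro w
    have h1 : ContDiff ℝ ∞ fun w : (X × ℝ) × (Submodule.span ℝ {e0})ᗮ => c w.1 :=
      hc.comp contDiff_fst
    exact (Spread.nrk_le h (hPh.differentiable (by simp) w) (h1.differentiable (by simp) w)
      (hP0 w) (hc0 w.1) (Eventually.of_forall hsub)).trans
        (nrk_comp_fst (hc.differentiable (by simp) _))
  have hZ : finrank ℝ (X × ℝ) = k + 1 := by rw [finrank_prod, finrank_self, hkX]
  have hX' : finrank ℝ ((X × ℝ) × (Submodule.span ℝ {e0})ᗮ) = k + m := by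
    rw [finrank_prod, hZ, hYdim]
    omega
  have hnrc : ∀ z : X × ℝ, z ∉ K ×ˢ Icc (0 : ℝ) 1 → nrk Pi c z + 1 ≤ k := by
    intro z hz
    by_cases hK : z.1 ∈ K
    · have h2 : z.2 < 0 ∨ 1 < z.2 := by
        by_contra h3
        rw [not_or, not_lt, not_lt] at h3
        exact hz ⟨hK, h3⟩
      rcases h2 with h2 | h2
      · rw [nrk_congr (pth_neg h2)]
        have h3 := nrk_comp_fst (Pi := Pi) (c := Φ) (w := z)
          (S.cyc.smooth.differentiable (by simp) _)
        have h4 := S.nr z.1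
        omega
      · rw [nrk_congr (pth_gt h2), nrk_const]
        omega
    · have h2 := S.cyc.rank z.1 hK
      have h3 := rk_pth (a := a) S.cyc.smooth z
      have h4 := nrk_le_rk (Pi := Pi) c z
      change nrk Pi c z ≤ rk (fderiv ℝ (pth a Φ) z) at h4
      omega
  have hcyc : Cyc ((K ×ˢ Icc (0 : ℝ) 1) ×ˢ closedBall (0 : (Submodule.span ℝ {e0})ᗮ) 1) Ph :=
    { smooth := hPh
      norm := hPn
      compact := (S.cyc.compact.prod isCompact_Icc).prod (isCompact_closedBall _ _)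
      rank := by
        intro w hw
        by_cases hy : w.2 ∈ closedBall (0 : (Submodule.span ℝ {e0})ᗮ) 1
        · have hz : w.1 ∉ K ×ˢ Icc (0 : ℝ) 1 := fun h1 => hw ⟨h1, hy⟩
          have h1 := Spread.rk_le h (hPh.differentiable (by simp) w) hPn
          have h2 := hnrP w
          have h3 := hnrc w.1 hz
          omega
        · let g : X × ℝ → V := fun z => rad (Tz z e0)
          have hg : ContDiff ℝ ∞ g := contDiff_iff_contDiffAt.2 fun z =>
            (contDiffAt_rad fun h0 => he0 (hTi z (by rw [map_zero]; exact h0))).comp z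
              (hTz.clm_apply contDiff_const).contDiffAt
          have h1 : Ph =ᶠ[𝓝 w] fun w => g w.1 := by
            have h2 : ∀ᶠ w' : (X × ℝ) × (Submodule.span ℝ {e0})ᗮ in 𝓝 w,
                w'.2 ∉ closedBall (0 : (Submodule.span ℝ {e0})ᗮ) 1 :=
              (isClosed_closedBall.isOpen_compl.preimage continuous_snd).mem_nhds hy
            filter_upwards [h2] with w' hw'
            change rad (Tz w'.1 (th e0 w'.2)) = rad (Tz w'.1 e0)
            rw [(th_const he hw').self_of_nhds]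
          rw [h1.fderiv_eq]
          have h2 := rk_comp_fst (c := g) (w := w) (hg.differentiable (by simp) _)
          have h3 := rk_le (fderiv ℝ g w.1)
          omega }
  refine ⟨_, Ph, hcyc, ?_, ?_, ?_, ?_⟩
  · -- values
    rintro ⟨⟨x, t⟩, y⟩
    obtain ⟨x', hx', hxx⟩ := S.surj x
    obtain ⟨t', ht', htt⟩ : ∃ t' ∈ Icc (0 : ℝ) 1, Real.smoothTransition t' =
        Real.smoothTransition t := by
      rcases lt_or_ge t 0 with h1 | h1
      · exact ⟨0, ⟨le_rfl, zero_le_one⟩, by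
          rw [Real.smoothTransition.zero, Real.smoothTransition.zero_of_nonpos h1.le]⟩
      · rcases lt_or_ge 1 t with h2 | h2
        · exact ⟨1, ⟨zero_le_one, le_rfl⟩, by
            rw [Real.smoothTransition.one, Real.smoothTransition.one_of_one_le h2.le]⟩
        · exact ⟨t, ⟨h1, h2⟩, rfl⟩
    obtain ⟨y', hy', hyy⟩ : ∃ y' ∈ closedBall (0 : (Submodule.span ℝ {e0})ᗮ) 1,
        th e0 y' = th e0 y := by
      by_cases hy : y ∈ closedBall (0 : (Submodule.span ℝ {e0})ᗮ) 1
      · exact ⟨y, hy, rfl⟩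
      · rw [mem_closedBall_zero_iff, not_le] at hy
        have hy0 : ‖y‖ ≠ 0 := by linarith
        have h1 : ‖(‖y‖⁻¹ • y)‖ = 1 := by
          rw [norm_smul, norm_inv, norm_norm, inv_mul_cancel₀ hy0]
        refine ⟨‖y‖⁻¹ • y, ?_, ?_⟩
        · rw [mem_closedBall_zero_iff, h1]
        · rw [th_out he h1.ge, th_out he hy.le]
    refine ⟨((x', t'), y'), ⟨⟨hx', ht'⟩, hy'⟩, ?_⟩
    change rad (T (Φ x', Real.smoothTransition t') (th e0 y')) =
      rad (T (Φ x, Real.smoothTransition t) (th e0 y))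
    rw [hxx, htt, hyy]
  · -- normal rank
    intro w
    have h1 := hnrP w
    have h2 := nrk_le_rk (Pi := Pi) c w.1
    have h3 := rk_le (fderiv ℝ c w.1)
    omega
  · rw [Nat.mul_succ, ← S.dim]
    omega
  · -- the integral
    obtain ⟨ε, hε, hint⟩ := fib_int h (by omega) A hc hPh hc0 hP0 hsub (pB bX bR) bY
      (isCompact_closedBall (0 : (Submodule.span ℝ {e0})ᗮ) 1) (j := j) (by
        intro z y hy
        have h1 : (fun y => Ph (z, y)) =ᶠ[𝓝 y] fun _ => rad (Tz z e0) := by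
          filter_upwards [th_const he hy] with y' hy'
          change rad (Tz z (th e0 y')) = rad (Tz z e0)
          rw [hy']
        rw [h1.fderiv_eq, fderiv_const_apply]) (by
        intro z
        rw [← Ang.kappa_th h A hm he bY (hTi z) (hc0 z) (hTP z)]
        congr 1
        refine JJ_congr _ fun y => ?_
        have hd : DifferentiableAt ℝ (fun y => Tz z (th e0 y)) y :=
          (Tz z).differentiableAt.comp y ((contDiff_th he).differentiable (by simp) _)
        have hd2 : DifferentiableAt ℝ (fun y => Ph (z, y)) y :=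
          (hPh.differentiable (by simp) _).comp y (differentiableAt_const z |>.prodMk
            differentiableAt_id)
        refine Hom.pb_smul A.hom hd2 hd (hP0 _) ?_ (hpre0 (z, y))
        refine Eventually.of_forall fun y' => ?_
        change rad (rad (pre (z, y'))) = rad (pre (z, y'))
        rw [rad, hPn (z, y'), inv_one, one_smul]) (by
        have := S.dim
        omega) hcyc.compact (by
        intro w hw
        exact hcyc.eval_out (pB (pB bX bR) bY) _ hw)
    rw [hint, base_int bX A (by omega) S.cyc S.dim hc0, abs_mul, abs_mul, hε, abs_neg, S.int,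
      one_mul]
    have hκ : 0 ≤ κ := by
      rw [← Ang.kappa_th h A hm he bY (hTi (0, 0)) (hc0 (0, 0)) (hTP (0, 0))]
      exact abs_nonneg _
    rw [abs_of_nonneg hκ, ← pow_succ']

end Vale.Agent.P231.TW
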